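import Vale.Agent.P347.Zero.SemDefs

/-!
Accuracy of the rules with the exact end points given, so that they can be chosen measurably in
the base point.
-/

open MeasureTheory ProbabilityTheory
open scoped RealInnerProductSpace ENNReal

namespace Vale.Agent.P347.Zero

variable {d : ℕ} (V : EE d → ℝ) (c : Cfg) (s σ : ℝ) (y : EE d)

/-- `FwdOk` with the end map E of the exact flow given. -/
def FwdAt (res : ℝ≥0∞) (E : EE d → EE d) : Prop :=
  ∃ Ξ : EE d → Fin c.G.n → EE d, Measurable Ξ ∧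
    (∀ i, eLpNorm (fun W => fwdF V c s y W (Ξ W) i - Ξ W i) 2 (gam d) ≤ res) ∧
    eLpNorm (fun W => fwdOut V c s y W (Ξ W) - E W) 2 (gam d) ≤ res ∧
    ((gam d).prod (gam d)).map (fun p => (backLen s)⁻¹ •
      ((2 / 3 * fwdLen s) • E p.1 + Real.sqrt (s / 6) • p.2)) = post V s y (backLen s)

/-- `RotOk` with the exactly standard vector η₀ given. -/
def RotAt (res M : ℝ≥0∞) (η₀ : EE d × EE d → EE d) : Prop :=
  ∃ u : EE d × EE d → Fin c.G.n → EE d × EE d,
    Measurable u ∧
    ((post V s y (backLen s)).prod (gam d)).map η₀ = gam d ∧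
    eLpNorm id 2 (post V s y (backLen s)) ≤ M ∧
    (∀ i, ∃ ν : Measure (EE d), IsProbabilityMeasure ν ∧ eLpNorm id 2 ν ≤ M ∧
      ((post V s y (backLen s)).prod (gam d)).map (fun z => u z i) = ν.prod (gam d)) ∧
    (∀ i, eLpNorm (fun z : EE d × EE d =>
      c.G.node i • (y + backLen s • z.1) + (1 - c.G.node i) • y +
        (backLen s * c.G.node i) • ∑ j, backW c s i j • (Dv V (backScale c s j) (u z j).1 -
          σ⁻¹ • hess2 V (backScale c s j) (u z j).1 (u z j).2) - (u z i).1) 2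
      ((post V s y (backLen s)).prod (gam d)) ≤ res) ∧
    (∀ i, eLpNorm (fun z : EE d × EE d =>
      z.2 + σ⁻¹ • (Dv V (s / 2) (y + backLen s • z.1) - Dv V (backScale c s i) (u z i).1) -
        (σ ^ 2)⁻¹ • (∑ j, (backW c s i j * (backLen s * c.G.node j)) •
          hess2 V (backScale c s j) (u z j).1
            (hess2 V (backScale c s j) (u z j).1 (u z j).2)) - (u z i).2) 2
      ((post V s y (backLen s)).prod (gam d)) ≤ res) ∧
    eLpNorm (fun z : EE d × EE d =>
      σ • z.2 + Dv V (s / 2) (y + backLen s • z.1) -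
        σ⁻¹ • (∑ j, (backLen s * c.G.tot j * (backLen s * c.G.node j)) •
          hess2 V (backScale c s j) (u z j).1
            (hess2 V (backScale c s j) (u z j).1 (u z j).2)) -
        Dv V s y - σ • η₀ z) 2
      ((post V s y (backLen s)).prod (gam d)) ≤ res

variable {V c s σ y} {res res' M : ℝ≥0∞}

lemma FwdAt.mono {E : EE d → EE d} (h : FwdAt V c s y res E) (hr : res ≤ res') :
    FwdAt V c s y res' E := by
  obtain ⟨Ξ, hΞ, h1, h2, h3⟩ := h
  exact ⟨Ξ, hΞ, fun i => (h1 i).trans hr, h2.trans hr, h3⟩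

lemma RotAt.mono {η₀ : EE d × EE d → EE d} (h : RotAt V c s σ y res M η₀) (hr : res ≤ res') :
    RotAt V c s σ y res' M η₀ := by
  obtain ⟨u, hu, hlaw, hm, hn, e1, e2, e3⟩ := h
  exact ⟨u, hu, hlaw, hm, hn, fun i => (e1 i).trans hr, fun i => (e2 i).trans hr, e3.trans hr⟩

lemma FwdAt.ok {E : EE d → EE d} (h : FwdAt V c s y res E) (hE : Measurable E) :
    FwdOk V c s y res := by
  obtain ⟨Ξ, hΞ, h1, h2, h3⟩ := h
  exact ⟨Ξ, E, hΞ, hE, h1, h2, h3⟩

lemma RotAt.ok {η₀ : EE d × EE d → EE d} (h : RotAt V c s σ y res M η₀) (hη : Measurable η₀) :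
    RotOk V c s σ y res M := by
  obtain ⟨u, hu, hrest⟩ := h
  exact ⟨u, η₀, hu, hη, hrest⟩

end Vale.Agent.P347.Zero
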