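import Vale.Agent.P347.Zero.Bipartition
import Vale.Agent.P347.Zero.DvBounds
import Vale.Agent.P347.Zero.Energy
import Vale.Agent.P347.Zero.FlowBasics
import Vale.Agent.P347.Zero.SemTools

/-!
The regularity hypotheses of the flows and of the semantic maps, discharged, and the size of the
laws along the plain flow.
-/

open MeasureTheory ProbabilityTheory Set
open scoped ENNReal RealInnerProductSpace

namespace Vale.Agent.P347.Zero

variable {d : ℕ} {V : EE d → ℝ}

lemma gradient_lip (hV : Admissible V) (x z : EE d) :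
    ‖gradient V x - gradient V z‖ ≤ 2 * ‖x - z‖ := norm_gradient_sub_le hV x z

lemma Dv_lip (hV : Admissible V) {v : ℝ} (hv : 0 < v) (hv1 : v ≤ 1 / 16) (x z : EE d) :
    ‖Dv V v x - Dv V v z‖ ≤ 2 * ‖x - z‖ :=
  convex_univ.norm_image_sub_le_of_norm_fderiv_le (fun w _ => differentiableAt_Dv hV hv w)
    (fun w _ => Dv_norm hV hv hv1 w) (mem_univ z) (mem_univ x)

theorem driftOk (hV : Admissible V) {S : ℝ} (hS : S ≤ 1 / 16) : DriftOk V S where
  lip := fun v hv hvS x z => by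
    rcases hv.lt_or_eq with h | h
    · exact Dv_lip hV h (hvS.trans hS) x z
    · subst h; simpa [Dv] using gradient_lip hV x z
  sym := fun v hv _ x a b => Dv_symm hV hv x a b
  nrm := fun v hv hvS x a =>
    ((hess2 V v x).le_opNorm a).trans
      (mul_le_mul_of_nonneg_right (Dv_norm hV hv (hvS.trans hS) x) (norm_nonneg a))

theorem heatEq (hV : Admissible V) : HeatEq V := by
  intro v hv x
  have h : HasDerivAt (fun t => WithLp.ofLp (Dv V t x))
      (fun k => 1 / 2 * (∑ i, Calc.pd (Dv V) [i, i, k] v x)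
        - ∑ i, Dv V v x i * Calc.pd (Dv V) [i, k] v x) v :=
    hasDerivAt_pi.2 fun k => heat_Dv hV hv x k
  have h2 : HasDerivAt (fun t => Dv V t x) (WithLp.toLp 2 fun k =>
      1 / 2 * (∑ i, Calc.pd (Dv V) [i, i, k] v x)
        - ∑ i, Dv V v x i * Calc.pd (Dv V) [i, k] v x) v :=
    ((PiLp.continuousLinearEquiv 2 ℝ (fun _ : Fin d => ℝ)).symm.hasFDerivAt).comp_hasDerivAt v h
  refine h2.congr_deriv ?_
  ext k
  have e : hess2 V v x (Dv V v x) k = ∑ i, Dv V v x i * Calc.pd (Dv V) [i, k] v x := by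
    conv_lhs =>
      rw [show Dv V v x = ∑ i, Dv V v x i • Calc.ev i by
        simpa [Calc.ev, EuclideanSpace.basisFun_apply] using
          ((EuclideanSpace.basisFun (Fin d) ℝ).sum_repr (Dv V v x)).symm]
    simp only [map_sum, map_smul, WithLp.ofLp_sum, Finset.sum_apply, PiLp.smul_apply, smul_eq_mul,
      hess2_apply hV hv]
  simp [lapD_apply hV hv, e]

lemma lapD_le (hV : Admissible V) {K : ℝ} (hK0 : 0 ≤ K) (hK : BipBound 1 K) {u : ℝ} (hu : 0 < u)
    (hu1 : u ≤ 1 / 16) (x : EE d) :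
    ‖lapD V u x‖ ≤ (d : ℝ) * (d * (K / Real.sqrt u)) := by
  have hM := hK d V u hV hu hu1 x 2 1 (by norm_num) le_rfl rfl
  rw [pow_one] at hM
  have hC : 0 ≤ K / Real.sqrt u := by positivity
  have hcomp : ∀ i k, |Calc.pd (Dv V) [i, i, k] u x| ≤ K / Real.sqrt u := by
    intro i k
    have h := hM (fun g => if g = (fun _ => k) then 1 else 0)
    simp only [mul_ite, mul_one, mul_zero, Finset.sum_ite_eq', Finset.mem_univ, if_true,
      ite_pow, one_pow, ne_eq, OfNat.ofNat_ne_zero, not_false_eq_true, zero_pow]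
      at h
    have h1 := Finset.single_le_sum (f := fun f : Fin 2 → Fin d =>
      Calc.pd (Dv V) (List.ofFn f ++ List.ofFn fun _ : Fin 1 => k) u x ^ 2)
      (fun f _ => sq_nonneg _) (Finset.mem_univ (fun _ : Fin 2 => i))
    have e : List.ofFn (fun _ : Fin 2 => i) ++ List.ofFn (fun _ : Fin 1 => k) = [i, i, k] := by
      simp [List.ofFn_succ]
    simp only [e] at h1
    have h2 := h1.trans h
    exact abs_le_of_sq_le_sq h2 hC
  refine (norm_le_sum_abs _).trans ?_
  refine (Finset.sum_le_card_nsmul _ _ (d * (K / Real.sqrt u)) fun k _ => ?_).trans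
    (by simp)
  rw [lapD_apply hV hu]
  refine (Finset.abs_sum_le_sum_abs _ _).trans ?_
  exact (Finset.sum_le_card_nsmul _ _ _ fun i _ => hcomp i k).trans (by simp)
where
  norm_le_sum_abs {d : ℕ} (v : EE d) : ‖v‖ ≤ ∑ k, |v k| := by
    rw [EuclideanSpace.norm_eq, Real.sqrt_le_iff]
    refine ⟨Finset.sum_nonneg fun k _ => abs_nonneg _, ?_⟩
    simp only [Real.norm_eq_abs]
    exact Finset.sum_sq_le_sq_sum_of_nonneg fun k _ => abs_nonneg _

theorem flowReg (hV : Admissible V) {s : ℝ} (hs : 0 < s) (hs1 : s ≤ 1 / 16) : FlowReg V s where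
  nrm := (driftOk hV hs1).nrm
  sym := (driftOk hV hs1).sym
  mono := fun u hu hus x w => (Dv_bounds hV hu (hus.trans hs1) x w).1
  lap := by
    obtain ⟨K, hK0, hK⟩ := bip 1
    refine ⟨(d : ℝ) * (d * (K / Real.sqrt (s / 4))), fun u hu hus x => ?_⟩
    refine (lapD_le hV hK0 hK (by linarith) (hus.trans hs1) x).trans ?_
    gcongr

/-- The size of the points of the plain flow. -/
lemma fwd_norm_le (hV : Admissible V) {s r : ℝ} (hs : 0 < s) (hs1 : s ≤ 1 / 32) (hr : 0 ≤ r)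
    (hr1 : r ^ 2 ≤ s / 2) {y : EE d} {ξ : ℝ → EE d → EE d} (hξ : IsFwd V s y r ξ) (W : EE d) :
    ‖ξ r W‖ ≤ 3 * ‖W‖ + (2 * ‖y‖ + Real.sqrt d) := by
  have hsol := hξ.solves W
  have hr8 : r ≤ 1 / 8 := by nlinarith
  have hder : ∀ t ∈ Ico 0 r,
      ‖fwdField V s y t (ξ t W)‖ ≤ 3 * ‖ξ t W‖ + (3 * ‖y‖ + Real.sqrt d) := by
    intro t ht
    have ht2 : t ^ 2 ≤ r ^ 2 := pow_le_pow_left₀ ht.1 ht.2.le 2
    have hv : 0 < s - t ^ 2 := by linarith
    have h := norm_Dv_le hV hv (y + t • ξ t W)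
    have hn : ‖y + t • ξ t W‖ ≤ ‖y‖ + ‖ξ t W‖ := by
      refine (norm_add_le _ _).trans ?_
      rw [norm_smul, Real.norm_eq_abs, abs_of_nonneg ht.1]
      nlinarith [norm_nonneg (ξ t W), ht.2, ht.1]
    have hsq : 4 * Real.sqrt ((s - t ^ 2) * d) ≤ Real.sqrt d := by
      rw [Real.sqrt_mul hv.le]
      have : Real.sqrt (s - t ^ 2) ≤ 1 / 4 := by
        rw [Real.sqrt_le_iff]; exact ⟨by norm_num, by nlinarith [sq_nonneg t]⟩
      nlinarith [Real.sqrt_nonneg (d : ℝ)]
    rw [fwdField, norm_neg]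
    have hvle : s - t ^ 2 ≤ 1 / 32 := by nlinarith [sq_nonneg t]
    nlinarith [norm_nonneg (y + t • ξ t W), norm_nonneg (ξ t W)]
  have hg := norm_le_gronwallBound_of_norm_deriv_right_le (δ := ‖W‖) (K := 3)
    (ε := 3 * ‖y‖ + Real.sqrt d) (f := fun t => ξ t W)
    (f' := fun t => fwdField V s y t (ξ t W)) hsol.continuousOn
    (fun t ht => (hsol t (Ico_subset_Icc_self ht)).mono_of_mem_nhdsWithin
      (Icc_mem_nhdsGE_of_mem ht))
    (by rw [hξ.init W]) hder r (right_mem_Icc.2 hr)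
  rw [gronwallBound_of_K_ne_0 (by norm_num), sub_zero] at hg
  have he : Real.exp (3 * r) ≤ 3 :=
    le_trans (Real.exp_le_exp.2 (by linarith : 3 * r ≤ 1)) Real.exp_one_lt_three.le
  have he0 : 1 ≤ Real.exp (3 * r) := Real.one_le_exp (by linarith)
  have := Real.sqrt_nonneg (d : ℝ)
  refine hg.trans (add_le_add ?_ ?_)
  · rw [mul_comm]; exact mul_le_mul_of_nonneg_right he (norm_nonneg _)
  · rw [div_mul_eq_mul_div, div_le_iff₀ (by norm_num : (0:ℝ) < 3)]
    nlinarith [norm_nonneg y]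

/-- The laws along the plain flow have size O(√d + |y|). -/
theorem post_moment (hV : Admissible V) {s r : ℝ} (hs : 0 < s) (hs1 : s ≤ 1 / 32) (hr : 0 ≤ r)
    (hr1 : r ^ 2 ≤ s / 2) {y : EE d} {ξ : ℝ → EE d → EE d} (hξ : IsFwd V s y r ξ) :
    eLpNorm (fun ξ => y + r • ξ) 2 (post V s y r) ≤ ENNReal.ofReal (4 * (Real.sqrt d + ‖y‖)) ∧
      eLpNorm id 2 (post V s y r) ≤ ENNReal.ofReal (4 * (Real.sqrt d + ‖y‖)) := by
  have hr8 : r ≤ 1 / 8 := by nlinarith
  have hrm : r ∈ Icc 0 r := right_mem_Icc.2 hr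
  set c := 2 * ‖y‖ + Real.sqrt d with hc
  have hc0 : 0 ≤ c := by positivity
  have hb : ∀ f : EE d → EE d, Continuous f → (∀ z, ‖f z‖ ≤ ‖y‖ + 1 / 8 * ‖z‖ ∨ ‖f z‖ ≤ ‖z‖) →
      eLpNorm f 2 (post V s y r) ≤ ENNReal.ofReal (4 * (Real.sqrt d + ‖y‖)) := by
    intro f hf hfz
    rw [← hξ.law r hrm, eLpNorm_map_measure hf.aestronglyMeasurable
      (hξ.cont r hrm).aemeasurable]
    have hle : ∀ W, ‖(f ∘ ξ r) W‖ ≤ ‖3 * ‖W‖ + c‖ := fun W => by
      rw [Real.norm_eq_abs, abs_of_nonneg (by positivity)]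
      have h := fwd_norm_le hV hs hs1 hr hr1 hξ W
      rcases hfz (ξ r W) with h' | h'
      · refine h'.trans ?_
        nlinarith [norm_nonneg W, norm_nonneg y, Real.sqrt_nonneg (d : ℝ)]
      · exact h'.trans h
    refine (eLpNorm_mono hle).trans ?_
    refine (eLpNorm_add_le (f := fun W : EE d => 3 * ‖W‖) (g := fun _ : EE d => c) (by fun_prop)
      (by fun_prop) one_le_two).trans ?_
    rw [eLpNorm_const c two_ne_zero (NeZero.ne (gam d)), measure_univ, ENNReal.one_rpow, mul_one,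
      show (fun W : EE d => 3 * ‖W‖) = (3 : ℝ) • fun W : EE d => ‖W‖ from rfl,
      eLpNorm_const_smul, eLpNorm_norm]
    rw [show eLpNorm (fun x : EE d => x) 2 (gam d) = _ from eLp_gam, Real.enorm_eq_ofReal hc0,
      Real.enorm_eq_ofReal (by norm_num), ← ENNReal.ofReal_mul (by norm_num),
      ← ENNReal.ofReal_add (by positivity) hc0]
    refine ENNReal.ofReal_le_ofReal ?_
    rw [hc]; linarith [norm_nonneg y]
  refine ⟨hb _ (by fun_prop) fun z => Or.inl ?_, hb _ continuous_id fun z => Or.inr le_rfl⟩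
  refine (norm_add_le _ _).trans ?_
  rw [norm_smul, Real.norm_eq_abs, abs_of_nonneg hr]
  exact add_le_add le_rfl (mul_le_mul_of_nonneg_right hr8 (norm_nonneg _))

end Vale.Agent.P347.Zero
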