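import Vale.Agent.P347.Zero.Laws

/-!
Quadratic-mean bounds of path integrals along the exact flows, from the bounds of the calculus.
-/

open MeasureTheory Set
open scoped ENNReal RealInnerProductSpace

namespace Vale.Agent.P347.Zero

open Calc

lemma eLp_of_sq {α G : Type*} [MeasurableSpace α] [NormedAddCommGroup G] {μ : Measure α}
    {f : α → G} {B : ℝ} (hB : 0 ≤ B)
    (h : ∫⁻ a, ENNReal.ofReal (‖f a‖ ^ 2) ∂μ ≤ ENNReal.ofReal (B ^ 2))
    : eLpNorm f 2 μ ≤ ENNReal.ofReal B := by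
  rw [eLpNorm_eq_eLpNorm' two_ne_zero ENNReal.ofNat_ne_top, ENNReal.toReal_ofNat,
    eLpNorm'_eq_lintegral_enorm]
  have e : ∀ a, ‖f a‖ₑ ^ (2 : ℝ) = ENNReal.ofReal (‖f a‖ ^ 2) := fun a => by
    rw [ENNReal.rpow_two, ← ofReal_norm, ← ENNReal.ofReal_pow (norm_nonneg _)]
  simp only [e]
  refine (ENNReal.rpow_le_rpow h (by norm_num)).trans (le_of_eq ?_)
  rw [ENNReal.ofReal_rpow_of_nonneg (sq_nonneg B) (by norm_num), ← Real.rpow_natCast,
    ← Real.rpow_mul hB]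
  norm_num

lemma eLp_of_pointwise {α G : Type*} [MeasurableSpace α] [NormedAddCommGroup G] {μ : Measure α}
    {f : α → G} {g : α → ℝ} {C B : ℝ} (hC : 0 ≤ C)
    (h : ∀ a, ‖f a‖ ≤ C * g a) (hg : eLpNorm g 2 μ ≤ ENNReal.ofReal B) :
    eLpNorm f 2 μ ≤ ENNReal.ofReal (C * B) := by
  refine (eLpNorm_le_mul_eLpNorm_of_ae_le_mul (ae_of_all _ fun a => (h a).trans
    (mul_le_mul_of_nonneg_left (Real.le_norm_self _) hC)) 2).trans ?_
  rw [ENNReal.ofReal_mul hC]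
  gcongr

/-- A bound of the calculus for one field, at one order. -/
def FieldBound {K : ℕ → ℝ} {c : Cx K} (v : Pt c → EE c.d × EE c.d) (φ : Pt c → Fin c.d → ℝ)
    (m : ℕ) (C : ℝ) : Prop :=
  ∀ t ∈ times, Integrable (fun z => (∑ i, (along v)^[m] φ (t, z) i ^ 2) * wgt c t z) ∧
    sqn c ((along v)^[m] φ) t ≤ C * c.d * mass c t

variable {K : ℕ → ℝ} {c : Cx K} {V : EE c.d → ℝ} {s σ : ℝ} {y : EE c.d}

lemma prob_of_map {Ω : Type*} [MeasurableSpace Ω] {μ : Measure Ω} [IsProbabilityMeasure μ]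
    {z : Ω → EE c.d × EE c.d} (hz : Measurable z) {P : Measure (EE c.d)}
    (h : μ.map z = P.prod (gam c.d)) : IsProbabilityMeasure P := by
  have h1 := congrArg (fun ν : Measure (EE c.d × EE c.d) => ν univ) h
  have h2 : μ.map z univ = 1 := by
    rw [Measure.map_apply hz MeasurableSet.univ, preimage_univ, measure_univ]
  rw [show μ.map z univ = P.prod (gam c.d) univ from h1, ← univ_prod_univ, Measure.prod_prod,
    show gam c.d univ = 1 from measure_univ, mul_one] at h2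
  exact ⟨h2⟩

lemma Scales.path_L2 (h : Scales c V s y σ) (hV : Admissible V) {v : Pt c → EE c.d × EE c.d}
    {φ : Pt c → Fin c.d → ℝ} (hd : AlongDiff v φ) {m : ℕ} {C : ℝ} (hC : 0 ≤ C)
    (hb : FieldBound v φ m C) {Ω : Type*} [MeasurableSpace Ω] {μ : Measure Ω}
    [IsProbabilityMeasure μ] {T : ℝ} (hT : 0 ≤ T) (hT' : T < 9 / 10)
    {z : ℝ → Ω → EE c.d × EE c.d} (hzm : ∀ t ∈ Icc 0 T, Measurable (z t))
    (hz : ∀ ω, ∀ t ∈ Icc 0 T, HasDerivWithinAt (fun t => z t ω) (v (t, z t ω)) (Icc 0 T) t)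
    (hlaw : ∀ t ∈ Icc 0 T, μ.map (z t) = (post V s y (Real.sqrt s * t)).prod (gam c.d)) :
    eLpNorm (fun ω => ∫ t in (0:ℝ)..T, ‖alongVec v φ m (t, z t ω)‖) 2 μ ≤
      ENNReal.ofReal (T * Real.sqrt (C * c.d)) := by
  have hsub : Icc 0 T ⊆ times := fun t ht =>
    ⟨lt_of_lt_of_le (by norm_num) ht.1, lt_of_le_of_lt ht.2 hT'⟩
  refine eLp_of_sq (by positivity) ?_
  simp only [Real.norm_eq_abs, sq_abs]
  refine path_sq_le hd m μ hT hsub z hzm hz fun t ht => ?_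
  have := prob_of_map (hzm t ht) (hlaw t ht)
  rw [hlaw t ht, Real.sq_sqrt (by positivity)]
  exact h.sq_bound hV (hsub ht) (fun z => by positivity) (hb t (hsub ht)).1 (hb t (hsub ht)).2

end Vale.Agent.P347.Zero
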