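import Vale.Agent.P347.Zero.Bridge.Inst
import Vale.Agent.P347.Zero.JointFlow

/-!
The exact end points, chosen continuously in the base point.
-/

open MeasureTheory Set
open scoped ENNReal RealInnerProductSpace

namespace Vale.Agent.P347.Zero

variable {d : ℕ} {V : EE d → ℝ} {s σ : ℝ}

/-- Continuous families of plain and rotated flows at scale s, at the lengths used by one step. -/
theorem exists_exact (hV : Admissible V) (hs : 0 < s) (hs1 : s ≤ 1 / 16) (hσ : 0 < σ) :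
    ∃ (ξ : EE d → ℝ → EE d → EE d) (Φ : EE d → ℝ → EE d × EE d → EE d × EE d),
      (∀ y, IsFwd V s y (fwdLen s) (ξ y) ∧ IsRot V s y σ (backLen s) (Φ y)) ∧
      Continuous (fun p : EE d × EE d => ξ p.1 (fwdLen s) p.2) ∧
      Continuous (fun p : EE d × EE d × EE d => (Φ p.1 0 p.2).2) := by
  have hf := flowReg hV hs hs1
  have hR : fwdLen s ^ 2 ≤ 3 * s / 4 := (Real.sq_sqrt (by linarith)).le
  have hB : backLen s ^ 2 ≤ 3 * s / 4 :=
    (Real.sq_sqrt (by linarith : 0 ≤ s / 2)).le.trans (by linarith)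
  obtain ⟨ξ, hξ, hcξ⟩ := exists_fwd_joint hV hf hs hs1 (Real.sqrt_nonneg _) hR
  obtain ⟨Φ, hΦ, hcΦ⟩ := exists_rot_joint hV hf hs hs1 (Real.sqrt_nonneg _) hB hσ
  exact ⟨ξ, Φ, fun y => ⟨hξ y, hΦ y⟩, hcξ _ (right_mem_Icc.2 (Real.sqrt_nonneg _)),
    continuous_snd.comp (hcΦ 0 (left_mem_Icc.2 (Real.sqrt_nonneg _)))⟩

end Vale.Agent.P347.Zero
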