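import Vale.Agent.P347.Zero.HeatSemi
import Vale.Agent.P347.Zero.Defs

/-!
The bridge: joining the point at scale s/4 with y gives the law at scale s/2.
-/

open MeasureTheory ProbabilityTheory Set
open scoped ENNReal RealInnerProductSpace

namespace Vale.Agent.P347.Zero

variable {d : ℕ} {V : EE d → ℝ}

lemma gam_centred (L : StrongDual ℝ (EE d)) : ∫ x, L x ∂gam d = 0 := by
  have h : ∫ x, L x ∂gam d = ∫ x, L x ∂(gam d).map (fun ξ : EE d => -ξ) := by rw [gam_map_neg]
  rw [integral_map (by fun_prop) (by fun_prop)] at h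
  simp only [map_neg, integral_neg] at h
  linarith

/-- A rotation of a pair of standard vectors. -/
lemma gam_rotate {a b : ℝ} (hab : a ^ 2 + b ^ 2 = 1) :
    ((gam d).prod (gam d)).map
      (fun p : EE d × EE d => (a • p.1 - b • p.2, b • p.1 + a • p.2)) =
        (gam d).prod (gam d) := by
  obtain ⟨θ, hc, hs⟩ : ∃ θ : ℝ, Real.cos θ = a ∧ Real.sin θ = -b := by
    have ha1 : -1 ≤ a ∧ a ≤ 1 := abs_le.1 (abs_le_one_iff_mul_self_le_one.2 (by nlinarith))
    have hcos := Real.cos_arccos ha1.1 ha1.2
    have hsin : Real.sin (Real.arccos a) = |b| := by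
      rw [Real.sin_arccos, show 1 - a ^ 2 = b ^ 2 by linarith, Real.sqrt_sq_eq_abs]
    rcases le_total 0 b with hb | hb
    · exact ⟨-Real.arccos a, by rw [Real.cos_neg, hcos],
        by rw [Real.sin_neg, hsin, abs_of_nonneg hb]⟩
    · exact ⟨Real.arccos a, hcos, by rw [hsin, abs_of_nonpos hb]⟩
  have h := IsGaussian.map_rotation_eq_self_of_forall_strongDual_eq_zero (μ := gam d) gam_centred θ
  refine Eq.trans ?_ h
  congr 1
  funext p
  rw [ContinuousLinearMap.rotation_apply, hc, hs]
  simp [sub_eq_add_neg]

/-- The law of the bridged point. -/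
lemma bridge_law (hV : Admissible V) {s : ℝ} (y : EE d) {R Lb a b : ℝ}
    (hR : R ^ 2 < s) (hab : a ^ 2 + b ^ 2 = 1) (hRa : R * a = Lb) {E : EE d → EE d}
    (hE : Measurable E) (hlaw : (gam d).map E = post V s y R) :
    ((gam d).prod (gam d)).map (fun p => a • E p.1 + b • p.2) = post V s y Lb := by
  set u := s - R ^ 2 with hu
  have hu0 : 0 < u := sub_pos.2 hR
  set f := fun ξ : EE d => ENNReal.ofReal (pdens V u (y + R • ξ) / pdens V s y) with hf
  have hc := continuous_pdens hV hu0
  have hfm : Measurable f :=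
    ((hc.comp (by fun_prop : Continuous fun ξ : EE d => y + R • ξ)).div_const _).measurable
      |>.ennreal_ofReal
  have hlin : Measurable fun p : EE d × EE d => a • p.1 + b • p.2 := by fun_prop
  have h1 : ((gam d).prod (gam d)).map (fun p => a • E p.1 + b • p.2) =
      (((gam d).prod (gam d)).withDensity fun z => f z.1).map
        (fun p => a • p.1 + b • p.2) := by
    have e := Measure.map_prod_map (gam d) (gam d) hE measurable_id
    rw [hlaw, Measure.map_id] at e
    rw [← prod_withDensity_left hfm, show (gam d).withDensity f = post V s y R from rfl, e,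
      Measure.map_map hlin (hE.prodMap measurable_id)]
    rfl
  rw [h1]
  refine Measure.ext_of_lintegral _ fun φ hφ => ?_
  set T := fun p : EE d × EE d => (a • p.1 - b • p.2, b • p.1 + a • p.2)
  have hT : Measurable T := by fun_prop
  have hf1 : Measurable fun z : EE d × EE d => f z.1 := hfm.comp measurable_fst
  rw [lintegral_map hφ hlin,
    lintegral_withDensity_eq_lintegral_mul _ hf1 (g := fun p => φ (a • p.1 + b • p.2)) (hφ.comp hlin)]
  conv_lhs => rw [← gam_rotate (d := d) hab]
  have hg : Measurable fun z : EE d × EE d => f z.1 * φ (a • z.1 + b • z.2) :=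
    hf1.mul (hφ.comp hlin)
  simp only [Pi.mul_apply]
  rw [lintegral_map hg hT]
  have hlast : ∀ p : EE d × EE d, a • (T p).1 + b • (T p).2 = p.1 := fun p => by
    simp only [T, smul_sub, smul_add, smul_smul]
    rw [show a * a = 1 - b * b by linarith, sub_smul, one_smul, mul_comm b a]
    abel
  simp only [hlast]
  have hg2 : Measurable fun p : EE d × EE d => f (T p).1 * φ p.1 :=
    (hfm.comp hT.fst).mul (hφ.comp measurable_fst)
  rw [lintegral_prod _ hg2.aemeasurable,
    post, lintegral_withDensity_eq_lintegral_mul _ (by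
      by_cases h : 0 < s - Lb ^ 2
      · exact (((continuous_pdens hV h).comp
          (by fun_prop : Continuous fun ξ : EE d => y + Lb • ξ)).div_const _).measurable
          |>.ennreal_ofReal
      · exfalso
        apply h
        rw [← hRa, mul_pow]
        nlinarith [sq_nonneg R, sq_nonneg b, mul_nonneg (sq_nonneg R) (sq_nonneg b)]) hφ]
  refine lintegral_congr fun X => ?_
  simp only [T, Pi.mul_apply]
  have hg3 : Measurable fun Y : EE d => f (a • X - b • Y) := hfm.comp (by fun_prop)
  rw [lintegral_mul_const _ hg3]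
  congr 1
  have hi : Integrable (fun Y => pdens V u (y + R • (a • X - b • Y)) / pdens V s y) (gam d) := by
    refine Integrable.div_const ?_ _
    refine (integrable_const (1 : ℝ)).mono' (hc.comp (by fun_prop)).aestronglyMeasurable
      (ae_of_all _ fun ξ => ?_)
    rw [Real.norm_eq_abs, abs_of_nonneg (pdens_nonneg _ _)]
    exact pdens_le_one hV hu0 _
  rw [hf, ← ofReal_integral_eq_lintegral_ofReal hi
    (ae_of_all _ fun ξ => div_nonneg (pdens_nonneg _ _) (pdens_nonneg _ _)), integral_div]
  congr 2
  have e : ∀ Y : EE d, y + R • (a • X - b • Y) = (y + Lb • X) + (-(R * b)) • Y := fun Y => by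
    rw [smul_sub, smul_smul, smul_smul, hRa, neg_smul]; abel
  simp only [e]
  rw [integral_gam_abs (-(R * b)) (y + Lb • X) (pdens V u), ← Real.sqrt_sq_eq_abs,
    ← pdens_semigroup hV hu0 (sq_nonneg _)]
  congr 1
  rw [hu, ← hRa, show b = b from rfl]
  have hb2 : b ^ 2 = 1 - a ^ 2 := by linarith
  rw [neg_sq, mul_pow, hb2]
  ring

end Vale.Agent.P347.Zero
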