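import Vale.Agent.P347.Zero.Bridge.Leaf
import Vale.Agent.P347.Zero.Bridge.Law
import Vale.Agent.P347.Zero.Bridge.At

/-!
The forward rule is accurate along the exact flow, and its bridge has the law at scale s/2.
-/

open MeasureTheory Set
open scoped ENNReal RealInnerProductSpace

namespace Vale.Agent.P347.Zero

open Calc

variable {K : ℕ → ℝ} {c : Cx K} {V : EE c.d → ℝ} {s σ : ℝ} {y : EE c.d}

lemma fwdLen_eq {s : ℝ} (hs : 0 ≤ s) : fwdLen s = Real.sqrt s * Real.sqrt (3 / 4) := by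
  rw [fwdLen, ← Real.sqrt_mul hs]; ring_nf

lemma backLen_eq {s : ℝ} (hs : 0 ≤ s) : backLen s = Real.sqrt s * Real.sqrt (1 / 2) := by
  rw [backLen, ← Real.sqrt_mul hs]; ring_nf

lemma sqrt_34_lt : Real.sqrt (3 / 4) < 9 / 10 := by
  rw [Real.sqrt_lt' (by norm_num)]; norm_num

lemma sqrt_12_lt : Real.sqrt (1 / 2) < 9 / 10 := by
  rw [Real.sqrt_lt' (by norm_num)]; norm_num

theorem Scales.fwd_residual (h : Scales c V s y σ) (hV : Admissible V) (cfg : Cfg)
    {m : ℕ} {CR C hN : ℝ} (hCR : 0 ≤ CR) (hC : 0 ≤ C) (hN0 : 0 ≤ hN)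
    (hok : cfg.G.Ok CR) (hex : cfg.G.Exact m CR hN)
    (hd : AlongDiff (vel1 c) (hval c)) (hb : FieldBound (vel1 c) (hval c) m C)
    {ξ : ℝ → EE c.d → EE c.d} (hξ : IsFwd V s y (fwdLen s) ξ) :
    ∃ Ξ : EE c.d → Fin cfg.G.n → EE c.d, Measurable Ξ ∧ Measurable (ξ (fwdLen s)) ∧
      (∀ i, eLpNorm (fun W => fwdF V cfg s y W (Ξ W) i - Ξ W i) 2 (gam c.d) ≤ ENNReal.ofReal
        (CR * (Real.sqrt (3 / 4) * hN) ^ m * (Real.sqrt (3 / 4) * Real.sqrt (C * c.d)))) ∧
      eLpNorm (fun W => fwdOut V cfg s y W (Ξ W) - ξ (fwdLen s) W) 2 (gam c.d) ≤ ENNReal.ofReal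
        (CR * (Real.sqrt (3 / 4) * hN) ^ m * (Real.sqrt (3 / 4) * Real.sqrt (C * c.d))) := by
  set T := Real.sqrt (3 / 4) with hTd
  have hT0 : 0 ≤ T := Real.sqrt_nonneg _
  have hT' : T < 9 / 10 := sqrt_34_lt
  have hlen : fwdLen s = Real.sqrt s * T := fwdLen_eq h.pos.le
  rw [hlen] at hξ ⊢
  have hsub : Icc 0 T ⊆ times := fun t ht =>
    ⟨lt_of_lt_of_le (by norm_num) ht.1, lt_of_le_of_lt ht.2 hT'⟩
  have hnode : ∀ i, T * cfg.G.node i ∈ Icc 0 T := fun i =>
    ⟨mul_nonneg hT0 (hok.node_nonneg i), mul_le_of_le_one_right hT0 (hok.node_le i)⟩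
  have hTT : T ∈ Icc 0 T := right_mem_Icc.2 hT0
  have hr : ∀ i, fwdLen s * cfg.G.node i = Real.sqrt s * (T * cfg.G.node i) := fun i => by
    rw [hlen]; ring
  set Ξ : EE c.d → Fin cfg.G.n → EE c.d := fun X i => ξ (fwdLen s * cfg.G.node i) X with hΞ
  set E : EE c.d → EE c.d := ξ (Real.sqrt s * T) with hE
  have hΞm : Measurable Ξ := measurable_pi_lambda _ fun i =>
    (hξ.cont _ (by rw [hr]; exact scaled_mem le_rfl (hnode i))).measurable
  have hEm : Measurable E := (hξ.cont _ (scaled_mem le_rfl hTT)).measurable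
  have hvpos : ∀ j, 0 < s - (fwdLen s * cfg.G.node j) ^ 2 := fun j => by
    rw [hr, ← h.scale_eq]; exact mul_pos h.pos (scaleAt_pos (hsub (hnode j)))
  have hterm : ∀ (w : Fin cfg.G.n → ℝ), Measurable fun X => ∑ j, (fwdLen s * w j) •
      Dv V (s - (fwdLen s * cfg.G.node j) ^ 2) (y + (fwdLen s * cfg.G.node j) • Ξ X j) :=
    fun w => Finset.measurable_sum _ fun j _ =>
      (continuous_const_smul _).measurable.comp
        ((h.dv_contDiff (hvpos j)).continuous.measurable.comp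
          ((continuous_const.add (continuous_const_smul _)).measurable.comp
            ((measurable_pi_apply j).comp hΞm)))
  set I : EE c.d × EE c.d → ℝ := fun z =>
    ∫ t in (0:ℝ)..T, ‖alongVec (vel1 c) (hval c) m (t, fwdCurve s ξ t z)‖
  have hI : eLpNorm I 2 ((gam c.d).prod (gam c.d)) ≤
      ENNReal.ofReal (T * Real.sqrt (C * c.d)) :=
    h.path_L2 hV hd hC hb hT0 hT'
      (fun t ht => ((hξ.cont _ (scaled_mem le_rfl ht)).measurable.comp measurable_fst).prodMk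
        measurable_snd)
      (fun z => h.fwdCurve_deriv le_rfl hξ z) (fun t ht => Scales.fwdCurve_law le_rfl hξ ht)
  have hG0 : ∀ z j, alongVec (vel1 c) (hval c) 0
      (T * cfg.G.node j, fwdCurve s ξ (T * cfg.G.node j) z) = Real.sqrt s •
        Dv V (s - (fwdLen s * cfg.G.node j) ^ 2)
          (y + (fwdLen s * cfg.G.node j) • Ξ z.1 j) := fun z j => by
    rw [h.alongVec_zero, hVal]
    simp only [fwdCurve, hΞ, hr]
  have hq := fun z => hex (fun k t => alongVec (vel1 c) (hval c) k (t, fwdCurve s ξ t z)) T hT0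
    (alongVec_chain hd hsub (h.fwdCurve_deriv le_rfl hξ z) m)
  have hsum : ∀ (w : Fin cfg.G.n → ℝ) z, T • ∑ j, w j • alongVec (vel1 c) (hval c) 0
      (T * cfg.G.node j, fwdCurve s ξ (T * cfg.G.node j) z) = ∑ j, (fwdLen s * w j) •
        Dv V (s - (fwdLen s * cfg.G.node j) ^ 2) (y + (fwdLen s * cfg.G.node j) • Ξ z.1 j) := by
    intro w z
    simp only [hG0, Finset.smul_sum, smul_smul]
    refine Finset.sum_congr rfl fun j _ => ?_
    congr 1
    rw [hlen]; ring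
  refine ⟨Ξ, hΞm, hEm, fun i => ?_, ?_⟩
  · have hm1 : Measurable fun W => fwdF V cfg s y W (Ξ W) i - Ξ W i :=
      (measurable_id.sub (hterm _)).sub ((measurable_pi_apply i).comp hΞm)
    rw [← eLpNorm_comp_measurePreserving hm1.aestronglyMeasurable
      (measurePreserving_fst (μ := gam c.d) (ν := gam c.d))]
    refine eLp_of_pointwise (g := I) (by positivity) (fun z => ?_) hI
    refine le_trans (le_of_eq ?_) ((hq z).1 i)
    rw [h.fwd_integral le_rfl hT' hξ hd (hnode i), hsum, Function.comp_apply, fwdF, sub_right_comm]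
    simp only [hΞ, hr]
  · have hm1 : Measurable fun W => fwdOut V cfg s y W (Ξ W) - E W :=
      (measurable_id.sub (hterm _)).sub hEm
    rw [← eLpNorm_comp_measurePreserving hm1.aestronglyMeasurable
      (measurePreserving_fst (μ := gam c.d) (ν := gam c.d))]
    refine eLp_of_pointwise (g := I) (by positivity) (fun z => ?_) hI
    refine le_trans (le_of_eq ?_) (hq z).2
    rw [h.fwd_integral le_rfl hT' hξ hd hTT, hsum, Function.comp_apply, fwdOut, sub_right_comm]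

theorem Scales.fwd_point (h : Scales c V s y σ) (hV : Admissible V) (cfg : Cfg)
    {m : ℕ} {CR C hN : ℝ} (hCR : 0 ≤ CR) (hC : 0 ≤ C) (hN0 : 0 ≤ hN)
    (hok : cfg.G.Ok CR) (hex : cfg.G.Exact m CR hN)
    (hd : AlongDiff (vel1 c) (hval c)) (hb : FieldBound (vel1 c) (hval c) m C)
    {ξ : ℝ → EE c.d → EE c.d} (hξ : IsFwd V s y (fwdLen s) ξ) :
    FwdAt V cfg s y (ENNReal.ofReal
      (CR * (Real.sqrt (3 / 4) * hN) ^ m * (Real.sqrt (3 / 4) * Real.sqrt (C * c.d))))
      (ξ (fwdLen s)) := by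
  obtain ⟨Ξ, hΞm, hEm, h1, h2⟩ := h.fwd_residual hV cfg hCR hC hN0 hok hex hd hb hξ
  set E := ξ (fwdLen s)
  refine ⟨Ξ, hΞm, h1, h2, ?_⟩
  have hb0 : 0 < backLen s := Real.sqrt_pos.2 (half_pos h.pos)
  set a := (backLen s)⁻¹ * (2 / 3 * fwdLen s)
  set b := (backLen s)⁻¹ * Real.sqrt (s / 6)
  have hf2 : fwdLen s ^ 2 = 3 * s / 4 := Real.sq_sqrt (by linarith [h.pos])
  have hk2 : backLen s ^ 2 = s / 2 := Real.sq_sqrt (half_pos h.pos).le
  have hfun : (fun p : EE c.d × EE c.d => (backLen s)⁻¹ •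
      ((2 / 3 * fwdLen s) • E p.1 + Real.sqrt (s / 6) • p.2)) =
      fun p => a • E p.1 + b • p.2 := funext fun p => by rw [smul_add, smul_smul, smul_smul]
  rw [hfun]
  refine bridge_law hV y (R := fwdLen s) (by rw [hf2]; linarith [h.pos]) ?_ ?_ hEm ?_
  · simp only [a, b, mul_pow, inv_pow, hf2, hk2, Real.sq_sqrt (by linarith [h.pos] : 0 ≤ s / 6)]
    have := h.pos.ne'
    field_simp
    ring
  · simp only [a]
    field_simp
    rw [hf2, hk2]; ring
  · exact hξ.law _ (right_mem_Icc.2 (Real.sqrt_nonneg _))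

end Vale.Agent.P347.Zero
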