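import Vale.Agent.P347.Zero.Bridge.Rot
import Vale.Agent.P347.Zero.Bipartition
import Vale.Agent.P347.Zero.Calc.Bounds
import Vale.Agent.P347.Zero.HeatCx
import Vale.Agent.P347.Zero.FwdExists
import Vale.Agent.P347.Zero.Rotation
import Vale.Agent.P347.Zero.Bridge.Basics

/-!
The rules of every order are accurate along the exact flows, with constants depending only on
the order.
-/

open MeasureTheory Set
open scoped ENNReal RealInnerProductSpace

namespace Vale.Agent.P347.Zero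

open Calc

lemma isOpen_times_prod {K : ℕ → ℝ} (c : Cx K) : IsOpen (times ×ˢ (univ : Set (EE c.d × EE c.d))) :=
  isOpen_Ioo.prod isOpen_univ

lemma alongDiff_of_fs {K : ℕ → ℝ} {c : Cx K} {v : Pt c → EE c.d × EE c.d}
    {φ : Pt c → Fin c.d → ℝ} (h : ∀ m k, FS c fun p => (along v)^[m] φ p k) : AlongDiff v φ :=
  fun m p hp k => ((h m k).contDiffAt ((isOpen_times_prod c).mem_nhds ⟨hp, trivial⟩)).differentiableAt
    (by simp)

lemma mass_nonneg {K : ℕ → ℝ} (c : Cx K) (t : ℝ) : 0 ≤ mass c t :=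
  integral_nonneg fun _ => (Real.exp_pos _).le

lemma fieldBound_mono {K : ℕ → ℝ} {c : Cx K} {v : Pt c → EE c.d × EE c.d}
    {φ : Pt c → Fin c.d → ℝ} {m : ℕ} {C C' : ℝ}
    (h : ∀ t ∈ times, Integrable (fun z => (∑ i, (along v)^[m] φ (t, z) i ^ 2) * wgt c t z) ∧
      sqn c ((along v)^[m] φ) t ≤ C * c.d * mass c t) (hC : C ≤ C') : FieldBound v φ m C' :=
  fun t ht => ⟨(h t ht).1, (h t ht).2.trans
    (mul_le_mul_of_nonneg_right (mul_le_mul_of_nonneg_right hC (Nat.cast_nonneg _))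
      (mass_nonneg c t))⟩

/-- All fields are bounded at order m by one constant. -/
lemma exists_fieldBounds (K : ℕ → ℝ) (m : ℕ) (hm : 1 ≤ m) :
    ∃ C, 1 ≤ C ∧ ∀ c : Cx K, FieldBound (vel1 c) (hval c) m C ∧
      FieldBound (vel2 c) (hval c) m C ∧ FieldBound (vel2 c) (Peta c) m C ∧
      FieldBound (vel2 c) (PPeta c) m C ∧ FieldBound (vel2 c) (PPeta c) (m - 1) C := by
  obtain ⟨n, rfl⟩ : ∃ n, m = n + 1 := ⟨m - 1, by omega⟩
  obtain ⟨C₁, h₁⟩ := plain_bound (K := K) n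
  obtain ⟨C₂, h₂⟩ := rot_bound_hval (K := K) n
  obtain ⟨C₃, h₃⟩ := rot_bound_Peta (K := K) (n + 1)
  obtain ⟨C₄, h₄⟩ := rot_bound_PPeta (K := K) (n + 1)
  obtain ⟨C₅, h₅⟩ := rot_bound_PPeta (K := K) n
  have a1 := abs_nonneg C₁; have a2 := abs_nonneg C₂; have a3 := abs_nonneg C₃
  have a4 := abs_nonneg C₄; have a5 := abs_nonneg C₅
  have b1 := le_abs_self C₁; have b2 := le_abs_self C₂; have b3 := le_abs_self C₃
  have b4 := le_abs_self C₄; have b5 := le_abs_self C₅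
  refine ⟨1 + |C₁| + |C₂| + |C₃| + |C₄| + |C₅|, by linarith,
    fun c => ⟨?_, ?_, ?_, ?_, ?_⟩⟩
  · exact fieldBound_mono (h₁ c) (by linarith)
  · exact fieldBound_mono (h₂ c) (by linarith)
  · exact fieldBound_mono (h₃ c) (by linarith)
  · exact fieldBound_mono (h₄ c) (by linarith)
  · exact fieldBound_mono (h₅ c) (by linarith)

/-- A rule that integrates and differentiates chains is accurate on short paths. -/
lemma Rule.acc_of_exact {Q : Rule} {m : ℕ} {C : ℝ} (hC : 0 ≤ C) (he : Q.Exact m C 1)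
    (hd : Q.ExactDer m C) (d : ℕ) : Q.Acc d m C := by
  intro F T hT hT1 hF
  have hI : 0 ≤ ∫ t in (0:ℝ)..T, ‖F m t‖ :=
    intervalIntegral.integral_nonneg hT.le fun t _ => norm_nonneg _
  refine ⟨fun i => ?_, ?_⟩
  · simp only [← smul_smul, ← Finset.smul_sum]
    refine ((he F T hT.le hF).1 i).trans ?_
    rw [mul_one]
    exact mul_le_mul_of_nonneg_right (mul_le_mul_of_nonneg_left
      (pow_le_pow_of_le_one hT.le hT1 (Nat.sub_le m 2)) hC) hI
  · refine le_trans (le_of_eq ?_) (hd F T hT hF)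
    simp only [Finset.smul_sum, smul_smul, div_eq_inv_mul]

variable {d : ℕ} {V : EE d → ℝ}

lemma sqrt_mul_le_sqrt {C : ℝ} (hC : 1 ≤ C) (d : ℕ) :
    Real.sqrt (C * d) ≤ C * Real.sqrt d := by
  rw [Real.sqrt_mul (by linarith)]
  refine mul_le_mul_of_nonneg_right ?_ (Real.sqrt_nonneg _)
  rw [Real.sqrt_le_iff]
  exact ⟨by linarith, by nlinarith⟩

/-- All three kinds of rules, at every order, for every admissible potential. -/
theorem rules_accurate (m : ℕ) (hm : 2 ≤ m) :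
    ∃ C, 1 ≤ C ∧ ∃ L : Rule, L.n = m + 1 ∧ L.Ok C ∧ (∀ d, L.Acc d m C) ∧
      ∀ N : ℕ, 1 ≤ N → ∃ G : Rule, G.n = N * m + 1 ∧ G.Ok C ∧
        ∀ {d : ℕ} {V : EE d → ℝ}, Admissible V → ∀ cfg : Cfg, cfg.G = G → cfg.L = L →
          (0 < cfg.τ → cfg.τ ≤ 1 / 2 → ∀ v, 0 < v → v ≤ 1 / 32 →
            LeafOk V cfg v (ENNReal.ofReal (C * cfg.τ ^ (m - 1) * Real.sqrt d / v))) ∧
          ∀ s, 0 < s → s ≤ 1 / 32 → ∀ y : EE d,
            (∀ ξ, IsFwd V s y (fwdLen s) ξ →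
              FwdAt V cfg s y (ENNReal.ofReal (C * ((N : ℝ))⁻¹ ^ m * Real.sqrt d))
                (ξ (fwdLen s))) ∧
            ∀ σ, Real.sqrt s ≤ σ → ∀ Φ, IsRot V s y σ (backLen s) Φ →
              RotAt V cfg s σ y (ENNReal.ofReal (C * ((N : ℝ))⁻¹ ^ m * Real.sqrt d / s ^ 2))
                (ENNReal.ofReal (C * (Real.sqrt d + ‖y‖))) (fun w => (Φ 0 w).2) := by
  choose B hB0 hB using bip
  obtain ⟨C₀, hC₀, hf⟩ := exists_fieldBounds (cxK B) m (by omega)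
  obtain ⟨C₁, hC₁, hG⟩ := exists_rule m (by omega)
  obtain ⟨C₂, hC₂, L, hLn, hLok, hLex, hLder⟩ := exists_leaf_rule m hm
  set C := 4 + C₁ + C₂ + 2 * (C₁ + C₂) * (3 + m) * C₀ with hCd
  have hX : 0 ≤ 2 * (C₁ + C₂) * (3 + m) * C₀ := by positivity
  have hC1 : 1 ≤ C := by linarith
  have hC₁C : C₁ ≤ C := by linarith
  have hC₂C : C₂ ≤ C := by linarith
  have hKC : (4:ℝ) ≤ C := by linarith
  have hok : ∀ {Q : Rule} {a : ℝ}, Q.Ok a → a ≤ C → Q.Ok C := fun h ha =>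
    ⟨h.node_nonneg, h.node_le, fun i => (h.w_abs i).trans ha, h.tot_abs.trans ha,
      h.der_abs.trans ha⟩
  refine ⟨C, hC1, L, hLn, hok hLok hC₂C, fun d F T hT hT1 hF => ?_, fun N hN => ?_⟩
  · obtain ⟨h1, h2⟩ := Rule.acc_of_exact hC₂ hLex hLder d F T hT hT1 hF
    have : C₂ * T ^ (m - 2) * (∫ t in (0:ℝ)..T, ‖F m t‖) ≤
        C * T ^ (m - 2) * ∫ t in (0:ℝ)..T, ‖F m t‖ :=
      mul_le_mul_of_nonneg_right (mul_le_mul_of_nonneg_right hC₂C (pow_nonneg hT.le _))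
        (intervalIntegral.integral_nonneg hT.le fun t _ => norm_nonneg _)
    exact ⟨fun i => (h1 i).trans this, h2.trans this⟩
  obtain ⟨G, hGn, hGok, hGex⟩ := hG N hN
  refine ⟨G, hGn, hok hGok hC₁C, fun {d} {V} hV cfg hcG hcL => ?_⟩
  subst hcG hcL
  have hsd : Real.sqrt (C₀ * d) ≤ C₀ * Real.sqrt d := sqrt_mul_le_sqrt hC₀ d
  have hcC : ∀ {x : ℝ}, 0 ≤ x → x ≤ 2 * (C₁ + C₂) * (3 + m) → x * C₀ ≤ C := fun hx hx' => by
    have := mul_le_mul_of_nonneg_right hx' (by linarith : 0 ≤ C₀)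
    linarith
  have hA1 : ∀ {s σ : ℝ} (hs : 0 < s) (hs1 : s ≤ 1 / 32) (hσ : Real.sqrt s ≤ σ) (y : EE d),
      let c := mkCx hV hB0 hB hs hs1 hσ y
      AlongDiff (vel1 c) (hval c) ∧ AlongDiff (vel2 c) (hval c) ∧ AlongDiff (vel2 c) (Peta c) ∧
        AlongDiff (vel2 c) (PPeta c) := fun hs hs1 hσ y =>
    ⟨alongDiff_of_fs fun m k => plain_smooth m _ k, alongDiff_of_fs fun m k => rot_smooth_hval m _ k,
      alongDiff_of_fs fun m k => rot_smooth_Peta m _ k,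
      alongDiff_of_fs fun m k => rot_smooth_PPeta m _ k⟩
  refine ⟨fun hτ hτ2 v hv hv1 x => ?_, fun s hs hs1 y => ?_⟩
  · set c := mkCx hV hB0 hB hv hv1 (le_refl (Real.sqrt v)) x
    have hsc : Scales c V v x (Real.sqrt v) := mkCx_scales hV hB0 hB hv hv1 le_rfl x
    have hlen : leafStep cfg v ^ 2 ≤ 3 * v / 4 := by
      rw [leafStep, mul_pow, Real.sq_sqrt hv.le]
      have : cfg.τ ^ 2 ≤ 1 / 4 := by nlinarith
      exact mul_le_mul_of_nonneg_right (this.trans (by norm_num : (1:ℝ) / 4 ≤ 3 / 4)) hv.le |>.trans_eq (by ring)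
    obtain ⟨ξ, hξ⟩ := exists_fwd hV (flowReg hV hv (by linarith)) hv (by linarith)
      (mul_nonneg hτ.le (Real.sqrt_nonneg v)) hlen x
    obtain ⟨Ξ, hΞ, h1, h2⟩ := hsc.leaf_point hV (heatEq hV) cfg hτ (by linarith) hC₂
      (by linarith : 0 ≤ C₀) hLok hLex hLder (hA1 hv hv1 le_rfl x).1 (hf c).1 hξ
    have hres : ∀ {p : ℕ}, m - 2 ≤ p → ∀ {w : ℝ}, 0 < w → v ≤ w →
        C₂ * cfg.τ ^ p / w * (cfg.τ * Real.sqrt (C₀ * d)) ≤
          C * cfg.τ ^ (m - 1) * Real.sqrt d / v := fun {p} hp {w} hw hvw => by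
      have e : cfg.τ ^ (m - 1) = cfg.τ ^ (m - 2) * cfg.τ := by
        rw [← pow_succ]; congr 1; omega
      calc C₂ * cfg.τ ^ p / w * (cfg.τ * Real.sqrt (C₀ * d))
          ≤ C₂ * cfg.τ ^ (m - 2) / v * (cfg.τ * (C₀ * Real.sqrt d)) := by
            have := pow_le_pow_of_le_one hτ.le (by linarith) hp
            gcongr
        _ = (C₂ * C₀) * cfg.τ ^ (m - 1) * Real.sqrt d / v := by rw [e]; ring
        _ ≤ _ := by
            gcongr
            exact hcC hC₂ (by nlinarith)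
    refine ⟨Ξ, hΞ, fun i => (h1 i).trans (ENNReal.ofReal_le_ofReal ?_),
      h2.trans (ENNReal.ofReal_le_ofReal (hres le_rfl hv le_rfl))⟩
    refine le_trans (le_of_eq ?_) (hres (Nat.sub_le m 2) one_pos (by linarith))
    rw [div_one]
    rfl
  · obtain ⟨ξ₀, hξ₀⟩ := exists_fwd hV (flowReg hV hs (by linarith)) hs (by linarith)
      (Real.sqrt_nonneg _) (Real.sq_sqrt (by linarith)).le y
    set c := mkCx hV hB0 hB hs hs1 (le_refl (Real.sqrt s)) y
    have hsc : Scales c V s y (Real.sqrt s) := mkCx_scales hV hB0 hB hs hs1 le_rfl y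
    have hN0 : (0:ℝ) ≤ (N : ℝ)⁻¹ := by positivity
    have hpow : ∀ {q : ℝ}, 0 ≤ q → q ≤ 1 → (q * (N : ℝ)⁻¹) ^ m ≤ ((N : ℝ))⁻¹ ^ m := fun hq hq1 =>
      pow_le_pow_left₀ (mul_nonneg hq hN0) (mul_le_of_le_one_left hN0 hq1) m
    have h34 : Real.sqrt (3 / 4) ≤ 1 := by linarith [sqrt_34_lt]
    have hres : C₁ * (Real.sqrt (3 / 4) * (N : ℝ)⁻¹) ^ m *
        (Real.sqrt (3 / 4) * Real.sqrt (C₀ * d)) ≤ C * ((N : ℝ))⁻¹ ^ m * Real.sqrt d := by
      calc C₁ * (Real.sqrt (3 / 4) * (N : ℝ)⁻¹) ^ m * (Real.sqrt (3 / 4) * Real.sqrt (C₀ * d))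
          ≤ C₁ * ((N : ℝ))⁻¹ ^ m * (1 * (C₀ * Real.sqrt d)) := by
            have := hpow (Real.sqrt_nonneg (3 / 4)) h34
            gcongr
        _ = (C₁ * C₀) * ((N : ℝ))⁻¹ ^ m * Real.sqrt d := by ring
        _ ≤ _ := by
            gcongr
            exact hcC hC₁ (by nlinarith)
    refine ⟨fun ξ hξ => ?_, fun σ hσ Φ hΦ => ?_⟩
    · exact (hsc.fwd_point hV cfg hC₁ (by linarith : 0 ≤ C₀) hN0 hGok hGex
        (hA1 hs hs1 le_rfl y).1 (hf c).1 hξ).mono (ENNReal.ofReal_le_ofReal hres)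
    · have hσ0 : 0 < σ := (Real.sqrt_pos.2 hs).trans_le hσ
      set c' := mkCx hV hB0 hB hs hs1 hσ y
      have hsc' : Scales c' V s y σ := mkCx_scales hV hB0 hB hs hs1 hσ y
      obtain ⟨-, hdh, hdp, hdq⟩ := hA1 hs hs1 hσ y
      obtain ⟨-, b1, b2, b3, b4⟩ := hf c'
      have hr2 : ∀ r ∈ Icc 0 (backLen s), r ^ 2 ≤ s / 2 := fun r hr =>
        (pow_le_pow_left₀ hr.1 hr.2 2).trans_eq (Real.sq_sqrt (by linarith))
      have hM : ∀ {x : ℝ}, x ≤ 4 * (Real.sqrt d + ‖y‖) → x ≤ C * (Real.sqrt d + ‖y‖) :=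
        fun hx => hx.trans (mul_le_mul_of_nonneg_right hKC (by positivity))
      have hmom : ∀ r ∈ Icc 0 (backLen s),
          eLpNorm (fun ξ => y + r • ξ) 2 (post V s y r) ≤
            ENNReal.ofReal (4 * (Real.sqrt d + ‖y‖)) ∧
          eLpNorm id 2 (post V s y r) ≤ ENNReal.ofReal (4 * (Real.sqrt d + ‖y‖)) := fun r hr => by
        obtain ⟨ξr, hξr⟩ := exists_fwd hV (flowReg hV hs (by linarith)) hs (by linarith) hr.1
          ((hr2 r hr).trans (by linarith)) y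
        exact post_moment hV hs hs1 hr.1 (hr2 r hr) hξr
      have hrot := hsc'.rot_point hV (heatEq hV) cfg (by linarith) hσ hC₁
        (by linarith : 0 ≤ C₀) hN0 hGok hGex hdh hdp hdq b1 b2 b3 b4 hΦ
        (fun r hr => post_isProbability hV (by linarith [hr2 r hr]) y)
        (M := ENNReal.ofReal (C * (Real.sqrt d + ‖y‖)))
        (fun r hr => (hmom r hr).1.trans (ENNReal.ofReal_le_ofReal (hM le_rfl)))
        ((hmom _ (right_mem_Icc.2 (Real.sqrt_nonneg _))).2.trans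
          (ENNReal.ofReal_le_ofReal (hM le_rfl)))
      have h12 : Real.sqrt (1 / 2) ≤ 1 := by linarith [sqrt_12_lt]
      have hle : ENNReal.ofReal (2 * C₁ * (Real.sqrt (1 / 2) * (N : ℝ)⁻¹) ^ m / s ^ 2 *
          ((3 + m) * (Real.sqrt (1 / 2) * Real.sqrt (C₀ * d)))) ≤
          ENNReal.ofReal (C * ((N : ℝ))⁻¹ ^ m * Real.sqrt d / s ^ 2) := by
        refine ENNReal.ofReal_le_ofReal ?_
        calc 2 * C₁ * (Real.sqrt (1 / 2) * (N : ℝ)⁻¹) ^ m / s ^ 2 *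
              ((3 + m) * (Real.sqrt (1 / 2) * Real.sqrt (C₀ * d)))
            ≤ 2 * C₁ * ((N : ℝ))⁻¹ ^ m / s ^ 2 * ((3 + m) * (1 * (C₀ * Real.sqrt d))) := by
              have := hpow (Real.sqrt_nonneg (1 / 2)) h12
              gcongr
          _ = (2 * C₁ * (3 + m) * C₀) * ((N : ℝ))⁻¹ ^ m * Real.sqrt d / s ^ 2 := by ring
          _ ≤ _ := by
              gcongr
              exact hcC (by positivity) (by gcongr; linarith)
      exact hrot.mono hle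

end Vale.Agent.P347.Zero
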