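import Vale.Agent.P347.Zero.Bridge.Common
import Vale.Agent.P347.Zero.Energy
import Vale.Agent.P347.Zero.Rule

/-!
The derivative rule is accurate along the exact plain flow from a point.
-/

open MeasureTheory Set
open scoped ENNReal RealInnerProductSpace

namespace Vale.Agent.P347.Zero

open Calc

variable {K : ℕ → ℝ} {c : Cx K} {V : EE c.d → ℝ} {s σ : ℝ} {y : EE c.d}

/-- The plain flow in the time of scale one. -/
noncomputable def fwdCurve (s : ℝ) {d : ℕ} (ξ : ℝ → EE d → EE d) (t : ℝ) (z : EE d × EE d) :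
    EE d × EE d :=
  (ξ (Real.sqrt s * t) z.1, z.2)

lemma scaled_mem {T t R : ℝ} (hR : Real.sqrt s * T ≤ R) (ht : t ∈ Icc 0 T) :
    Real.sqrt s * t ∈ Icc 0 R :=
  ⟨mul_nonneg (Real.sqrt_nonneg s) ht.1,
    (mul_le_mul_of_nonneg_left ht.2 (Real.sqrt_nonneg s)).trans hR⟩

lemma Scales.fwdCurve_deriv (h : Scales c V s y σ) {R T : ℝ} (hR : Real.sqrt s * T ≤ R)
    {ξ : ℝ → EE c.d → EE c.d} (hξ : IsFwd V s y R ξ) (z : EE c.d × EE c.d) :
    ∀ t ∈ Icc 0 T, HasDerivWithinAt (fun t => fwdCurve s ξ t z)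
      (vel1 c (t, fwdCurve s ξ t z)) (Icc 0 T) t := by
  intro t ht
  have h1 := (hξ.solves z.1 (Real.sqrt s * t) (scaled_mem hR ht)).scomp t
    ((hasDerivWithinAt_id t (Icc 0 T)).const_mul (Real.sqrt s))
    (fun u (hu : u ∈ Icc 0 T) => scaled_mem hR hu)
  simp only [mul_one] at h1
  rw [h.vel1_eq]
  exact h1.prodMk (hasDerivWithinAt_const t _ z.2)

lemma Scales.fwdCurve_law {R T : ℝ} (hR : Real.sqrt s * T ≤ R) {ξ : ℝ → EE c.d → EE c.d}
    (hξ : IsFwd V s y R ξ) {t : ℝ} (ht : t ∈ Icc 0 T) :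
    ((gam c.d).prod (gam c.d)).map (fwdCurve s ξ t) =
      (post V s y (Real.sqrt s * t)).prod (gam c.d) := by
  have hm := (hξ.cont _ (scaled_mem hR ht)).measurable
  have e := Measure.map_prod_map (gam c.d) (gam c.d) hm measurable_id
  rw [hξ.law _ (scaled_mem hR ht), Measure.map_id] at e
  exact e.symm

/-- The drift along the flow, at scale one. -/
lemma Scales.alongVec_zero (h : Scales c V s y σ) (v : Pt c → EE c.d × EE c.d) (t : ℝ)
    (w : EE c.d × EE c.d) :
    alongVec v (hval c) 0 (t, w) = Real.sqrt s • hVal V s y (Real.sqrt s * t) w.1 :=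
  h.hval_eq t w

/-- The position along the flow is the start minus the integral of the drift. -/
lemma Scales.fwd_integral (h : Scales c V s y σ) {R T : ℝ} (hR : Real.sqrt s * T ≤ R)
    (hT : T < 9 / 10) {ξ : ℝ → EE c.d → EE c.d} (hξ : IsFwd V s y R ξ)
    (hd : AlongDiff (vel1 c) (hval c)) {t : ℝ} (ht : t ∈ Icc 0 T) (z : EE c.d × EE c.d) :
    ∫ u in (0:ℝ)..t, alongVec (vel1 c) (hval c) 0 (u, fwdCurve s ξ u z) =
      z.1 - ξ (Real.sqrt s * t) z.1 := by
  have hsub : Icc 0 T ⊆ times := fun t ht =>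
    ⟨lt_of_lt_of_le (by norm_num) ht.1, lt_of_le_of_lt ht.2 hT⟩
  have hsub' : Icc 0 t ⊆ Icc 0 T := Icc_subset_Icc le_rfl ht.2
  have hc : ContinuousOn (fun u => alongVec (vel1 c) (hval c) 0 (u, fwdCurve s ξ u z)) (Icc 0 T) :=
    fun u hu => (alongVec_deriv hd hsub (h.fwdCurve_deriv hR hξ z) 0 u hu).continuousWithinAt
  have hderiv : ∀ u ∈ Icc 0 T, HasDerivWithinAt (fun u => -ξ (Real.sqrt s * u) z.1)
      (alongVec (vel1 c) (hval c) 0 (u, fwdCurve s ξ u z)) (Icc 0 T) u := fun u hu => by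
    have h1 : HasDerivWithinAt (fun u => ξ (Real.sqrt s * u) z.1)
        (vel1 c (u, fwdCurve s ξ u z)).1 (Icc 0 T) u :=
      (ContinuousLinearMap.fst ℝ (EE c.d) (EE c.d)).hasFDerivAt.comp_hasDerivWithinAt (x := u)
        (h.fwdCurve_deriv hR hξ z u hu)
    refine h1.fun_neg.congr_deriv ?_
    rw [h.alongVec_zero, h.vel1_eq, fwdField, smul_neg, neg_neg]
    rfl
  rw [intervalIntegral.integral_eq_sub_of_hasDerivAt_of_le ht.1
    (fun u hu => ((hderiv u (hsub' hu)).continuousWithinAt).mono hsub')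
    (fun u hu => (hderiv u (hsub' (Ioo_subset_Icc_self hu))).hasDerivAt
      (Icc_mem_nhds hu.1 (lt_of_lt_of_le hu.2 ht.2)))
    ((hc.mono hsub').intervalIntegrable_of_Icc ht.1)]
  simp only [mul_zero, hξ.init]
  abel

/-- The derivative at the start is the Hessian. -/
lemma Scales.fwd_deriv_zero (h : Scales c V s y σ) (hh : HeatEq V) {R T : ℝ}
    (hR : Real.sqrt s * T ≤ R) (hT0 : 0 < T) (hT : T < 9 / 10) {ξ : ℝ → EE c.d → EE c.d}
    (hξ : IsFwd V s y R ξ) (hd : AlongDiff (vel1 c) (hval c)) (z : EE c.d × EE c.d) :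
    alongVec (vel1 c) (hval c) 1 (0, fwdCurve s ξ 0 z) = s • hess2 V s y z.1 := by
  have hsub : Icc 0 T ⊆ times := fun t ht =>
    ⟨lt_of_lt_of_le (by norm_num) ht.1, lt_of_le_of_lt ht.2 hT⟩
  have h0 : (0 : ℝ) ∈ Icc 0 T := left_mem_Icc.2 hT0.le
  have h1 := alongVec_deriv hd hsub (h.fwdCurve_deriv hR hξ z) 0 0 h0
  have hξ' : HasDerivWithinAt (fun u => ξ u z.1) (fwdField V s y 0 (ξ 0 z.1)) (Icc 0 R) 0 :=
    hξ.solves z.1 0 (left_mem_Icc.2 (le_trans (mul_nonneg (Real.sqrt_nonneg s) hT0.le) hR))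
  have hs2 : HasDerivWithinAt (fun u : ℝ => Real.sqrt s * u) (Real.sqrt s * 1) (Icc 0 T) 0 :=
    (hasDerivWithinAt_id 0 _).const_mul _
  have h2 := ((hVal_curve_zero h.smooth hh (y := y) hξ' h.pos).scomp_of_eq 0 hs2
    (fun u (hu : u ∈ Icc 0 T) => scaled_mem hR hu) (by simp)).const_smul (Real.sqrt s)
  have e : (fun u => alongVec (vel1 c) (hval c) 0 (u, fwdCurve s ξ u z)) =
      fun u => Real.sqrt s • hVal V s y (Real.sqrt s * u) (ξ (Real.sqrt s * u) z.1) := by
    funext u; rw [h.alongVec_zero]; rfl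
  rw [e] at h1
  have := (uniqueDiffOn_Icc hT0 0 h0).eq_deriv _ h1 h2
  rw [this, hξ.init, mul_one, smul_smul, Real.mul_self_sqrt h.pos.le]

/-- Both residuals of the derivative rule at the point y. -/
theorem Scales.leaf_point (h : Scales c V s y σ) (hV : Admissible V) (hh : HeatEq V) (cfg : Cfg)
    (hτ : 0 < cfg.τ) (hτ' : cfg.τ < 9 / 10) {m : ℕ} {CR C : ℝ} (hCR : 0 ≤ CR) (hC : 0 ≤ C)
    (hok : cfg.L.Ok CR) (hex : cfg.L.Exact m CR 1) (hder : cfg.L.ExactDer m CR)
    (hd : AlongDiff (vel1 c) (hval c)) (hb : FieldBound (vel1 c) (hval c) m C)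
    {ξ : ℝ → EE c.d → EE c.d} (hξ : IsFwd V s y (leafStep cfg s) ξ) :
    ∃ Ξ : EE c.d → Fin cfg.L.n → EE c.d, Measurable Ξ ∧
      (∀ i, eLpNorm (fun X => leafF V cfg s y X (Ξ X) i - Ξ X i) 2 (gam c.d) ≤
        ENNReal.ofReal (CR * cfg.τ ^ m * (cfg.τ * Real.sqrt (C * c.d)))) ∧
      eLpNorm (fun X => leafOut V cfg s y (Ξ X) - hess2 V s y X) 2 (gam c.d) ≤
        ENNReal.ofReal (CR * cfg.τ ^ (m - 2) / s * (cfg.τ * Real.sqrt (C * c.d))) := by
  set T := cfg.τ with hTd
  have hstep : leafStep cfg s = Real.sqrt s * T := mul_comm _ _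
  rw [hstep] at hξ
  have hsub : Icc 0 T ⊆ times := fun t ht =>
    ⟨lt_of_lt_of_le (by norm_num) ht.1, lt_of_le_of_lt ht.2 hτ'⟩
  have hnode : ∀ i, T * cfg.L.node i ∈ Icc 0 T := fun i =>
    ⟨mul_nonneg hτ.le (hok.node_nonneg i), mul_le_of_le_one_right hτ.le (hok.node_le i)⟩
  have hr : ∀ i, leafStep cfg s * cfg.L.node i = Real.sqrt s * (T * cfg.L.node i) := fun i => by
    rw [hstep]; ring
  set Ξ : EE c.d → Fin cfg.L.n → EE c.d := fun X i => ξ (leafStep cfg s * cfg.L.node i) X with hΞ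
  have hΞm : Measurable Ξ := measurable_pi_lambda _ fun i =>
    (hξ.cont _ (by rw [hr]; exact scaled_mem le_rfl (hnode i))).measurable
  have hdc : ∀ v : ℝ, 0 < v → Continuous (Dv V v) := fun v hv => (h.dv_contDiff hv).continuous
  have hvpos : ∀ j, 0 < s - (leafStep cfg s * cfg.L.node j) ^ 2 := fun j => by
    rw [hr, ← h.scale_eq]; exact mul_pos h.pos (scaleAt_pos (hsub (hnode j)))
  set I : EE c.d × EE c.d → ℝ := fun z =>
    ∫ t in (0:ℝ)..T, ‖alongVec (vel1 c) (hval c) m (t, fwdCurve s ξ t z)‖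
  have hI : eLpNorm I 2 ((gam c.d).prod (gam c.d)) ≤
      ENNReal.ofReal (T * Real.sqrt (C * c.d)) :=
    h.path_L2 hV hd hC hb hτ.le hτ'
      (fun t ht => ((hξ.cont _ (scaled_mem le_rfl ht)).measurable.comp measurable_fst).prodMk
        measurable_snd)
      (fun z => h.fwdCurve_deriv le_rfl hξ z) (fun t ht => Scales.fwdCurve_law le_rfl hξ ht)
  have hchain : ∀ z, Chain (fun k t => alongVec (vel1 c) (hval c) k (t, fwdCurve s ξ t z)) m 0 T :=
    fun z => alongVec_chain hd hsub (h.fwdCurve_deriv le_rfl hξ z) m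
  have hG0 : ∀ z j, alongVec (vel1 c) (hval c) 0
      (T * cfg.L.node j, fwdCurve s ξ (T * cfg.L.node j) z) = Real.sqrt s •
        Dv V (s - (leafStep cfg s * cfg.L.node j) ^ 2)
          (y + (leafStep cfg s * cfg.L.node j) • Ξ z.1 j) := fun z j => by
    rw [h.alongVec_zero, hVal]
    simp only [fwdCurve, hΞ, hr]
  refine ⟨Ξ, hΞm, fun i => ?_, ?_⟩
  · have hm1 : Measurable fun X => leafF V cfg s y X (Ξ X) i - Ξ X i := by
      refine Measurable.sub ?_ (measurable_pi_apply i |>.comp hΞm)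
      unfold leafF
      exact measurable_id.sub (Finset.measurable_sum _ fun j _ =>
        (continuous_const_smul _).measurable.comp ((hdc _ (hvpos j)).measurable.comp
          ((continuous_const.add (continuous_const_smul _)).measurable.comp
            ((measurable_pi_apply j).comp hΞm))))
    rw [← eLpNorm_comp_measurePreserving hm1.aestronglyMeasurable
      (measurePreserving_fst (μ := gam c.d) (ν := gam c.d))]
    refine eLp_of_pointwise (g := I) (by positivity) (fun z => ?_) hI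
    have hq := (hex (fun k t => alongVec (vel1 c) (hval c) k (t, fwdCurve s ξ t z)) T hτ.le
      (hchain z)).1 i
    rw [h.fwd_integral le_rfl hτ' hξ hd (hnode i), mul_one] at hq
    refine le_trans (le_of_eq ?_) hq
    simp only [Function.comp_apply, leafF, hG0, Finset.smul_sum, smul_smul]
    rw [show ξ (Real.sqrt s * (T * cfg.L.node i)) z.1 = Ξ z.1 i by simp only [hΞ, hr]]
    rw [sub_right_comm]
    congr 2
    refine Finset.sum_congr rfl fun j _ => ?_
    rw [hstep]
    congr 1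
    ring
  · have hm1 : Measurable fun X => leafOut V cfg s y (Ξ X) - hess2 V s y X := by
      refine Measurable.sub ?_ (hess2 V s y).continuous.measurable
      unfold leafOut
      exact Finset.measurable_sum _ fun j _ =>
        (continuous_const_smul _).measurable.comp ((hdc _ (hvpos j)).measurable.comp
          ((continuous_const.add (continuous_const_smul _)).measurable.comp
            ((measurable_pi_apply j).comp hΞm)))
    rw [← eLpNorm_comp_measurePreserving hm1.aestronglyMeasurable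
      (measurePreserving_fst (μ := gam c.d) (ν := gam c.d))]
    refine eLp_of_pointwise (g := I) (div_nonneg (by positivity) h.pos.le) (fun z => ?_) hI
    have hq := hder (fun k t => alongVec (vel1 c) (hval c) k (t, fwdCurve s ξ t z)) T hτ (hchain z)
    rw [h.fwd_deriv_zero hh le_rfl hτ hτ' hξ hd] at hq
    have e : leafOut V cfg s y (Ξ z.1) - hess2 V s y z.1 = -(s⁻¹ • (s • hess2 V s y z.1 - T⁻¹ •
        ∑ j, cfg.L.der j • alongVec (vel1 c) (hval c) 0
          (T * cfg.L.node j, fwdCurve s ξ (T * cfg.L.node j) z))) := by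
      rw [smul_sub, inv_smul_smul₀ h.pos.ne', neg_sub]
      congr 1
      simp only [leafOut, hG0, Finset.smul_sum, smul_smul]
      refine Finset.sum_congr rfl fun j _ => ?_
      congr 1
      rw [hstep]
      have hss : s⁻¹ = (Real.sqrt s)⁻¹ * (Real.sqrt s)⁻¹ := by
        rw [← mul_inv, Real.mul_self_sqrt h.pos.le]
      rw [hss]
      field_simp [h.sqrt_ne]
    rw [Function.comp_apply, e, norm_neg, norm_smul, norm_inv, Real.norm_eq_abs, abs_of_pos h.pos]
    refine (mul_le_mul_of_nonneg_left hq (inv_nonneg.2 h.pos.le)).trans (le_of_eq ?_)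
    simp only [I]
    ring

end Vale.Agent.P347.Zero
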