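import Vale.Agent.P347.Zero.Bridge.Fwd

/-!
The backward rules are accurate along the exact rotated flow.
-/

open MeasureTheory Set
open scoped ENNReal RealInnerProductSpace

namespace Vale.Agent.P347.Zero

open Calc

/-- The chain of t ↦ t • P t. -/
lemma Chain.id_mul {E : Type*} [NormedAddCommGroup E] [NormedSpace ℝ E] {F : ℕ → ℝ → E} {m : ℕ}
    {a b : ℝ} (h : Chain F m a b) :
    Chain (fun k t => t • F k t + (k : ℝ) • F (k - 1) t) m a b := by
  have hc : ∀ j ≤ m, ContinuousOn (F j) (Icc a b) := fun j hj t ht => by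
    rcases hj.lt_or_eq with hlt | rfl
    · exact (h.1 j hlt t ht).continuousWithinAt
    · exact h.2 t ht
  refine ⟨fun k hk t ht => ?_,
    (continuousOn_id.smul (hc m le_rfl)).add ((hc (m - 1) (Nat.sub_le m 1)).const_smul (m : ℝ))⟩
  have h1 : HasDerivWithinAt (fun u => u • F k u) (t • F (k + 1) t + (1 : ℝ) • F k t) (Icc a b) t :=
    (hasDerivWithinAt_id t _).smul (h.1 k hk t ht)
  rcases k with _ | k
  · simp only [Nat.cast_zero, zero_smul, add_zero, zero_add, Nat.cast_one, one_smul, Nat.sub_self]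
    simpa using h1
  · have h2 := (h.1 k (by omega) t ht).const_smul ((k + 1 : ℕ) : ℝ)
    refine (h1.add h2).congr_deriv ?_
    simp only [Nat.add_sub_cancel, Nat.cast_add, Nat.cast_one, add_smul, one_smul]
    abel

lemma Chain.comb {E : Type*} [NormedAddCommGroup E] [NormedSpace ℝ E] {F G : ℕ → ℝ → E} {m : ℕ}
    {a b : ℝ} (hF : Chain F m a b) (hG : Chain G m a b) (r : ℝ) :
    Chain (fun k t => F k t - r • G k t) m a b :=
  ⟨fun k hk t ht => (hF.1 k hk t ht).sub ((hG.1 k hk t ht).const_smul r),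
    hF.2.sub (hG.2.const_smul r)⟩

variable {K : ℕ → ℝ} {c : Cx K} {V : EE c.d → ℝ} {s σ : ℝ} {y : EE c.d}

/-- The rotated flow in the time of scale one. -/
noncomputable def rotCurve (s : ℝ) {d : ℕ} (Φ : ℝ → EE d × EE d → EE d × EE d) (t : ℝ)
    (z : EE d × EE d) : EE d × EE d :=
  Φ (Real.sqrt s * t) z

lemma Scales.rotCurve_deriv (h : Scales c V s y σ) {R T : ℝ} (hR : Real.sqrt s * T ≤ R)
    (hT : T < 9 / 10) {Φ : ℝ → EE c.d × EE c.d → EE c.d × EE c.d} (hΦ : IsRot V s y σ R Φ)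
    (z : EE c.d × EE c.d) :
    ∀ t ∈ Icc 0 T, HasDerivWithinAt (fun t => rotCurve s Φ t z)
      (vel2 c (t, rotCurve s Φ t z)) (Icc 0 T) t := by
  intro t ht
  have h1 := (hΦ.solves z (Real.sqrt s * t) (scaled_mem hR ht)).scomp t
    ((hasDerivWithinAt_id t (Icc 0 T)).const_mul (Real.sqrt s))
    (fun u (hu : u ∈ Icc 0 T) => scaled_mem hR hu)
  simp only [mul_one] at h1
  rw [h.vel2_eq ⟨lt_of_lt_of_le (by norm_num) ht.1, lt_of_le_of_lt ht.2 hT⟩]
  exact h1

/-- The position integrand along the rotated flow and its derivatives. -/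
noncomputable def rotF (c : Cx K) (z : ℝ → EE c.d × EE c.d → EE c.d × EE c.d)
    (ω : EE c.d × EE c.d) (k : ℕ) (t : ℝ) : EE c.d :=
  alongVec (vel2 c) (hval c) k (t, z t ω) - c.sig⁻¹ • alongVec (vel2 c) (Peta c) k (t, z t ω)

/-- The auxiliary integrand along the rotated flow and its derivatives. -/
noncomputable def rotG (c : Cx K) (z : ℝ → EE c.d × EE c.d → EE c.d × EE c.d)
    (ω : EE c.d × EE c.d) (k : ℕ) (t : ℝ) : EE c.d :=
  t • alongVec (vel2 c) (PPeta c) k (t, z t ω) +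
    (k : ℝ) • alongVec (vel2 c) (PPeta c) (k - 1) (t, z t ω)

/-- The conserved combination. -/
noncomputable def rotW (V : EE c.d → ℝ) (s σ : ℝ) (y : EE c.d)
    (z : ℝ → EE c.d × EE c.d → EE c.d × EE c.d) (t : ℝ) (ω : EE c.d × EE c.d) : EE c.d :=
  σ • (z t ω).2 + hVal V s y (Real.sqrt s * t) (z t ω).1

/-- The nodes of the backward rule along the exact flow. -/
noncomputable def nodeU (s : ℝ) (cfg : Cfg) {d : ℕ} (y : EE d)
    (z : ℝ → EE d × EE d → EE d × EE d) (ω : EE d × EE d) (i : Fin cfg.G.n) : EE d × EE d :=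
  (y + (Real.sqrt s * (Real.sqrt (1 / 2) * cfg.G.node i)) •
      (z (Real.sqrt (1 / 2) * cfg.G.node i) ω).1, (z (Real.sqrt (1 / 2) * cfg.G.node i) ω).2)

lemma Scales.rotF_zero (h : Scales c V s y σ) (z : ℝ → EE c.d × EE c.d → EE c.d × EE c.d)
    (ω : EE c.d × EE c.d) {t : ℝ} (ht : t ∈ times) :
    rotF c z ω 0 t = Real.sqrt s • (hVal V s y (Real.sqrt s * t) (z t ω).1 -
      σ⁻¹ • pEta V s y (Real.sqrt s * t) (z t ω)) := by
  have e1 : alongVec (vel2 c) (hval c) 0 (t, z t ω) = _ := h.hval_eq t (z t ω)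
  have e2 : alongVec (vel2 c) (Peta c) 0 (t, z t ω) = _ := h.peta_eq ht (z t ω)
  simp only [rotF, e1, e2, smul_sub, smul_smul, h.noise]
  congr 2
  rw [mul_inv]
  calc (Real.sqrt s)⁻¹ * σ⁻¹ * s = (Real.sqrt s)⁻¹ * σ⁻¹ * (Real.sqrt s * Real.sqrt s) := by
        rw [Real.mul_self_sqrt h.pos.le]
    _ = Real.sqrt s * σ⁻¹ := by field_simp [h.sqrt_ne]

lemma Scales.rotG_zero (h : Scales c V s y σ) (z : ℝ → EE c.d × EE c.d → EE c.d × EE c.d)
    (ω : EE c.d × EE c.d) {t : ℝ} (ht : t ∈ times) :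
    rotG c z ω 0 t = (t * s ^ 2) • ppEta V s y (Real.sqrt s * t) (z t ω) := by
  have e : alongVec (vel2 c) (PPeta c) 0 (t, z t ω) = _ := h.ppeta_eq ht (z t ω)
  simp only [rotG, e, Nat.cast_zero, zero_smul, zero_mul, add_zero, smul_smul]

lemma Scales.rotF_integral (h : Scales c V s y σ) {T : ℝ} (hT' : T < 9 / 10)
    {Φ : ℝ → EE c.d × EE c.d → EE c.d × EE c.d} (hΦ : IsRot V s y σ (Real.sqrt s * T) Φ)
    (hdh : AlongDiff (vel2 c) (hval c)) (hdp : AlongDiff (vel2 c) (Peta c))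
    (ω : EE c.d × EE c.d) {t : ℝ} (ht : t ∈ Icc 0 T) :
    ∫ u in (0:ℝ)..t, rotF c (rotCurve s Φ) ω 0 u =
      (rotCurve s Φ 0 ω).1 - (rotCurve s Φ t ω).1 := by
  set z := rotCurve s Φ with hz
  have hzd := h.rotCurve_deriv le_rfl hT' hΦ ω
  have hsub : Icc 0 T ⊆ times := fun t ht =>
    ⟨lt_of_lt_of_le (by norm_num) ht.1, lt_of_le_of_lt ht.2 hT'⟩
  have hsub' : Icc 0 t ⊆ Icc 0 T := Icc_subset_Icc le_rfl ht.2
  have hder : ∀ u ∈ Icc 0 T, HasDerivWithinAt (fun u => -(z u ω).1) (rotF c z ω 0 u) (Icc 0 T) u :=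
    fun u hu => by
    have h1 : HasDerivWithinAt (fun u => (z u ω).1) (vel2 c (u, z u ω)).1 (Icc 0 T) u :=
      (ContinuousLinearMap.fst ℝ (EE c.d) (EE c.d)).hasFDerivAt.comp_hasDerivWithinAt (x := u)
        (hzd u hu)
    refine h1.fun_neg.congr_deriv ?_
    rw [h.rotF_zero z ω (hsub hu), h.vel2_eq (hsub hu)]
    simp only [rotField, fwdField, hVal, pEta, Prod.smul_fst, smul_add, smul_neg, neg_add_rev,
      neg_neg, smul_sub]
    abel
  have hcF : ContinuousOn (rotF c z ω 0) (Icc 0 T) := fun u hu =>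
    ((alongVec_deriv hdh hsub hzd 0 u hu).continuousWithinAt).sub
      (((alongVec_deriv hdp hsub hzd 0 u hu).continuousWithinAt).const_smul c.sig⁻¹)
  rw [intervalIntegral.integral_eq_sub_of_hasDerivAt_of_le ht.1
    (fun u hu => ((hder u (hsub' hu)).continuousWithinAt).mono hsub')
    (fun u hu => (hder u (hsub' (Ioo_subset_Icc_self hu))).hasDerivAt
      (Icc_mem_nhds hu.1 (lt_of_lt_of_le hu.2 ht.2)))
    ((hcF.mono hsub').intervalIntegrable_of_Icc ht.1)]
  abel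

lemma Scales.rotG_integral (h : Scales c V s y σ) (hh : HeatEq V) (hσ : σ ≠ 0) {T : ℝ}
    (hT' : T < 9 / 10) {Φ : ℝ → EE c.d × EE c.d → EE c.d × EE c.d}
    (hΦ : IsRot V s y σ (Real.sqrt s * T) Φ) (hdq : AlongDiff (vel2 c) (PPeta c))
    (ω : EE c.d × EE c.d) {t : ℝ} (ht : t ∈ Icc 0 T) :
    ∫ u in (0:ℝ)..t, rotG c (rotCurve s Φ) ω 0 u = (σ * s) •
      (rotW V s σ y (rotCurve s Φ) t ω - rotW V s σ y (rotCurve s Φ) 0 ω) := by
  set z := rotCurve s Φ with hz
  have hsub : Icc 0 T ⊆ times := fun t ht =>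
    ⟨lt_of_lt_of_le (by norm_num) ht.1, lt_of_le_of_lt ht.2 hT'⟩
  have hsub' : Icc 0 t ⊆ Icc 0 T := Icc_subset_Icc le_rfl ht.2
  have hder : ∀ u ∈ Icc 0 T, HasDerivWithinAt (fun u => (σ * s) • rotW V s σ y z u ω)
      (rotG c z ω 0 u) (Icc 0 T) u := fun u hu => by
    have hpos : 0 < s - (Real.sqrt s * u) ^ 2 := by
      rw [← h.scale_eq]; exact mul_pos h.pos (scaleAt_pos (hsub hu))
    have h1 := (rot_identity h.smooth hh hσ (y := y)
      (hΦ.solves ω (Real.sqrt s * u) (scaled_mem le_rfl hu)) hpos).scomp u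
      ((hasDerivWithinAt_id u (Icc 0 T)).const_mul (Real.sqrt s))
      (fun v (hv : v ∈ Icc 0 T) => scaled_mem le_rfl hv)
    refine (h1.const_smul (σ * s)).congr_deriv ?_
    rw [h.rotG_zero z ω (hsub hu), smul_smul, smul_smul]
    congr 1
    calc σ * s * (Real.sqrt s * 1) * (σ⁻¹ * (Real.sqrt s * u))
        = (σ * σ⁻¹) * (Real.sqrt s * Real.sqrt s) * s * u := by ring
      _ = _ := by rw [mul_inv_cancel₀ hσ, Real.mul_self_sqrt h.pos.le]; ring
  have hcG : ContinuousOn (rotG c z ω 0) (Icc 0 T) := by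
    have := continuousOn_id.smul (fun u (hu : u ∈ Icc 0 T) =>
      (alongVec_deriv hdq hsub (h.rotCurve_deriv le_rfl hT' hΦ ω) 0 u hu).continuousWithinAt)
    refine this.congr fun u _ => ?_
    simp [rotG, hz]
  rw [intervalIntegral.integral_eq_sub_of_hasDerivAt_of_le ht.1
    (fun u hu => ((hder u (hsub' hu)).continuousWithinAt).mono hsub')
    (fun u hu => (hder u (hsub' (Ioo_subset_Icc_self hu))).hasDerivAt
      (Icc_mem_nhds hu.1 (lt_of_lt_of_le hu.2 ht.2)))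
    ((hcG.mono hsub').intervalIntegrable_of_Icc ht.1), smul_sub]

lemma sq_sqrt_half : Real.sqrt (1 / 2) ^ 2 = 1 / 2 := Real.sq_sqrt (by norm_num)

lemma nodeU_scale {s : ℝ} (hs : 0 ≤ s) {cfg : Cfg} (j : Fin cfg.G.n) :
    backScale cfg s j = s - (Real.sqrt s * (Real.sqrt (1 / 2) * cfg.G.node j)) ^ 2 := by
  rw [backScale, backLen_eq hs, mul_assoc]

lemma Scales.rot_line1 (h : Scales c V s y σ) (cfg : Cfg) (hok01 : ∀ i, cfg.G.node i ∈ Icc (0:ℝ) 1)
    {Φ : ℝ → EE c.d × EE c.d → EE c.d × EE c.d}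
    (hΦ : IsRot V s y σ (Real.sqrt s * Real.sqrt (1 / 2)) Φ)
    (hdh : AlongDiff (vel2 c) (hval c)) (hdp : AlongDiff (vel2 c) (Peta c))
    (ω : EE c.d × EE c.d) (i : Fin cfg.G.n) :
    cfg.G.node i • (y + backLen s • ω.1) + (1 - cfg.G.node i) • y + (backLen s * cfg.G.node i) •
        ∑ j, backW cfg s i j • (Dv V (backScale cfg s j) (nodeU s cfg y (rotCurve s Φ) ω j).1 -
          σ⁻¹ • hess2 V (backScale cfg s j) (nodeU s cfg y (rotCurve s Φ) ω j).1
            (nodeU s cfg y (rotCurve s Φ) ω j).2) - (nodeU s cfg y (rotCurve s Φ) ω i).1 =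
      (backLen s * cfg.G.node i) • (
        ((∫ t in (0:ℝ)..Real.sqrt (1 / 2) * cfg.G.node i, rotF c (rotCurve s Φ) ω 0 t) -
          Real.sqrt (1 / 2) • ∑ j, cfg.G.W i j •
            rotF c (rotCurve s Φ) ω 0 (Real.sqrt (1 / 2) * cfg.G.node j)) -
        ((∫ t in (0:ℝ)..Real.sqrt (1 / 2), rotF c (rotCurve s Φ) ω 0 t) -
          Real.sqrt (1 / 2) • ∑ j, cfg.G.tot j •
            rotF c (rotCurve s Φ) ω 0 (Real.sqrt (1 / 2) * cfg.G.node j))) := by
  set T := Real.sqrt (1 / 2)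
  have hT0 : 0 ≤ T := Real.sqrt_nonneg _
  have hlen : backLen s = Real.sqrt s * T := backLen_eq h.pos.le
  have hnode : ∀ i, T * cfg.G.node i ∈ Icc 0 T := fun i =>
    ⟨mul_nonneg hT0 (hok01 i).1, mul_le_of_le_one_right hT0 (hok01 i).2⟩
  have hTT : T ∈ Icc 0 T := right_mem_Icc.2 hT0
  have ht : ∀ j, T * cfg.G.node j ∈ times := fun j =>
    ⟨lt_of_lt_of_le (by norm_num) (hnode j).1, lt_of_le_of_lt (hnode j).2 sqrt_12_lt⟩
  rw [h.rotF_integral sqrt_12_lt hΦ hdh hdp ω (hnode i),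
    h.rotF_integral sqrt_12_lt hΦ hdh hdp ω hTT]
  have hzT : rotCurve s Φ T ω = ω := hΦ.final ω
  have hterm : ∀ j, backW cfg s i j • (Dv V (backScale cfg s j) (nodeU s cfg y (rotCurve s Φ) ω j).1 -
      σ⁻¹ • hess2 V (backScale cfg s j) (nodeU s cfg y (rotCurve s Φ) ω j).1
        (nodeU s cfg y (rotCurve s Φ) ω j).2) =
      T • (cfg.G.tot j • rotF c (rotCurve s Φ) ω 0 (T * cfg.G.node j)) -
        T • (cfg.G.W i j • rotF c (rotCurve s Φ) ω 0 (T * cfg.G.node j)) := fun j => by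
    rw [h.rotF_zero _ ω (ht j), nodeU_scale h.pos.le, ← smul_sub, ← sub_smul, smul_smul, smul_smul,
      backW, hlen]
    simp only [nodeU, hVal, pEta]
    congr 1
    ring
  simp only [hterm, Finset.sum_sub_distrib, ← Finset.smul_sum, hzT]
  simp only [nodeU, hlen]
  module

lemma Scales.rot_line2 (h : Scales c V s y σ) (hh : HeatEq V) (hσ : σ ≠ 0) (cfg : Cfg)
    (hok01 : ∀ i, cfg.G.node i ∈ Icc (0:ℝ) 1)
    {Φ : ℝ → EE c.d × EE c.d → EE c.d × EE c.d}
    (hΦ : IsRot V s y σ (Real.sqrt s * Real.sqrt (1 / 2)) Φ) (hdq : AlongDiff (vel2 c) (PPeta c))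
    (ω : EE c.d × EE c.d) (i : Fin cfg.G.n) :
    ω.2 + σ⁻¹ • (Dv V (s / 2) (y + backLen s • ω.1) -
          Dv V (backScale cfg s i) (nodeU s cfg y (rotCurve s Φ) ω i).1) -
        (σ ^ 2)⁻¹ • (∑ j, (backW cfg s i j * (backLen s * cfg.G.node j)) •
          hess2 V (backScale cfg s j) (nodeU s cfg y (rotCurve s Φ) ω j).1
            (hess2 V (backScale cfg s j) (nodeU s cfg y (rotCurve s Φ) ω j).1
              (nodeU s cfg y (rotCurve s Φ) ω j).2)) - (nodeU s cfg y (rotCurve s Φ) ω i).2 =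
      (σ ^ 2 * s)⁻¹ • (
        ((∫ t in (0:ℝ)..Real.sqrt (1 / 2), rotG c (rotCurve s Φ) ω 0 t) -
          Real.sqrt (1 / 2) • ∑ j, cfg.G.tot j •
            rotG c (rotCurve s Φ) ω 0 (Real.sqrt (1 / 2) * cfg.G.node j)) -
        ((∫ t in (0:ℝ)..Real.sqrt (1 / 2) * cfg.G.node i, rotG c (rotCurve s Φ) ω 0 t) -
          Real.sqrt (1 / 2) • ∑ j, cfg.G.W i j •
            rotG c (rotCurve s Φ) ω 0 (Real.sqrt (1 / 2) * cfg.G.node j))) := by
  set T := Real.sqrt (1 / 2) with hT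
  have hT0 : 0 ≤ T := Real.sqrt_nonneg _
  have hlen : backLen s = Real.sqrt s * T := backLen_eq h.pos.le
  have hnode : ∀ i, T * cfg.G.node i ∈ Icc 0 T := fun i =>
    ⟨mul_nonneg hT0 (hok01 i).1, mul_le_of_le_one_right hT0 (hok01 i).2⟩
  have hTT : T ∈ Icc 0 T := right_mem_Icc.2 hT0
  have ht : ∀ j, T * cfg.G.node j ∈ times := fun j =>
    ⟨lt_of_lt_of_le (by norm_num) (hnode j).1, lt_of_le_of_lt (hnode j).2 sqrt_12_lt⟩
  rw [h.rotG_integral hh hσ sqrt_12_lt hΦ hdq ω (hnode i),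
    h.rotG_integral hh hσ sqrt_12_lt hΦ hdq ω hTT]
  have hterm : ∀ j, (σ ^ 2)⁻¹ • (backW cfg s i j * (backLen s * cfg.G.node j)) •
      hess2 V (backScale cfg s j) (nodeU s cfg y (rotCurve s Φ) ω j).1
        (hess2 V (backScale cfg s j) (nodeU s cfg y (rotCurve s Φ) ω j).1
          (nodeU s cfg y (rotCurve s Φ) ω j).2) =
      (σ ^ 2 * s)⁻¹ • (T • (cfg.G.tot j • rotG c (rotCurve s Φ) ω 0 (T * cfg.G.node j)) -
        T • (cfg.G.W i j • rotG c (rotCurve s Φ) ω 0 (T * cfg.G.node j))) := fun j => by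
    rw [h.rotG_zero _ ω (ht j), nodeU_scale h.pos.le, ← smul_sub, ← sub_smul, smul_smul, smul_smul,
      smul_smul, smul_smul, backW, hlen]
    simp only [nodeU, ppEta, pEta]
    congr 1
    calc (σ ^ 2)⁻¹ * (Real.sqrt s * T * (cfg.G.tot j - cfg.G.W i j) *
          (Real.sqrt s * T * cfg.G.node j))
        = (σ ^ 2)⁻¹ * (Real.sqrt s * Real.sqrt s) *
            (T * (cfg.G.tot j - cfg.G.W i j) * (T * cfg.G.node j)) := by ring
      _ = _ := by
          rw [Real.mul_self_sqrt h.pos.le]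
          field_simp [h.pos.ne', hσ]
  simp only [Finset.smul_sum, hterm, Finset.sum_sub_distrib, smul_sub]
  have hzT : rotCurve s Φ T ω = ω := hΦ.final ω
  have hDT : Dv V (s / 2) (y + backLen s • ω.1) = hVal V s y (Real.sqrt s * T) ω.1 := by
    rw [hVal, hlen]
    congr 1
    rw [mul_pow, Real.sq_sqrt h.pos.le, hT, sq_sqrt_half]; ring
  simp only [rotW, hzT, hDT, nodeU_scale h.pos.le]
  simp only [nodeU, hVal]
  match_scalars <;> field_simp [h.pos.ne', hσ] <;> ring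

lemma Scales.rot_line3 (h : Scales c V s y σ) (hh : HeatEq V) (hσ : σ ≠ 0) (cfg : Cfg)
    (hok01 : ∀ i, cfg.G.node i ∈ Icc (0:ℝ) 1)
    {Φ : ℝ → EE c.d × EE c.d → EE c.d × EE c.d}
    (hΦ : IsRot V s y σ (Real.sqrt s * Real.sqrt (1 / 2)) Φ) (hdq : AlongDiff (vel2 c) (PPeta c))
    (ω : EE c.d × EE c.d) :
    σ • ω.2 + Dv V (s / 2) (y + backLen s • ω.1) -
        σ⁻¹ • (∑ j, (backLen s * cfg.G.tot j * (backLen s * cfg.G.node j)) •
          hess2 V (backScale cfg s j) (nodeU s cfg y (rotCurve s Φ) ω j).1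
            (hess2 V (backScale cfg s j) (nodeU s cfg y (rotCurve s Φ) ω j).1
              (nodeU s cfg y (rotCurve s Φ) ω j).2)) - Dv V s y - σ • (rotCurve s Φ 0 ω).2 =
      (σ * s)⁻¹ • ((∫ t in (0:ℝ)..Real.sqrt (1 / 2), rotG c (rotCurve s Φ) ω 0 t) -
        Real.sqrt (1 / 2) • ∑ j, cfg.G.tot j •
          rotG c (rotCurve s Φ) ω 0 (Real.sqrt (1 / 2) * cfg.G.node j)) := by
  set T := Real.sqrt (1 / 2) with hT
  have hT0 : 0 ≤ T := Real.sqrt_nonneg _
  have hlen : backLen s = Real.sqrt s * T := backLen_eq h.pos.le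
  have hnode : ∀ i, T * cfg.G.node i ∈ Icc 0 T := fun i =>
    ⟨mul_nonneg hT0 (hok01 i).1, mul_le_of_le_one_right hT0 (hok01 i).2⟩
  have hTT : T ∈ Icc 0 T := right_mem_Icc.2 hT0
  have ht : ∀ j, T * cfg.G.node j ∈ times := fun j =>
    ⟨lt_of_lt_of_le (by norm_num) (hnode j).1, lt_of_le_of_lt (hnode j).2 sqrt_12_lt⟩
  rw [h.rotG_integral hh hσ sqrt_12_lt hΦ hdq ω hTT]
  have hterm : ∀ j, σ⁻¹ • (backLen s * cfg.G.tot j * (backLen s * cfg.G.node j)) •
      hess2 V (backScale cfg s j) (nodeU s cfg y (rotCurve s Φ) ω j).1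
        (hess2 V (backScale cfg s j) (nodeU s cfg y (rotCurve s Φ) ω j).1
          (nodeU s cfg y (rotCurve s Φ) ω j).2) =
      (σ * s)⁻¹ • (T • (cfg.G.tot j • rotG c (rotCurve s Φ) ω 0 (T * cfg.G.node j))) := fun j => by
    rw [h.rotG_zero _ ω (ht j), nodeU_scale h.pos.le, smul_smul, smul_smul, smul_smul, smul_smul,
      hlen]
    simp only [nodeU, ppEta, pEta]
    congr 1
    calc σ⁻¹ * (Real.sqrt s * T * cfg.G.tot j * (Real.sqrt s * T * cfg.G.node j))
        = σ⁻¹ * (Real.sqrt s * Real.sqrt s) * (T * cfg.G.tot j * (T * cfg.G.node j)) := by ring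
      _ = _ := by
          rw [Real.mul_self_sqrt h.pos.le]
          field_simp [h.pos.ne', hσ]
  simp only [Finset.smul_sum, hterm, smul_sub]
  have hzT : rotCurve s Φ T ω = ω := hΦ.final ω
  have hDT : Dv V (s / 2) (y + backLen s • ω.1) = hVal V s y (Real.sqrt s * T) ω.1 := by
    rw [hVal, hlen]
    congr 1
    rw [mul_pow, Real.sq_sqrt h.pos.le, hT, sq_sqrt_half]; ring
  have hW0 : rotW V s σ y (rotCurve s Φ) 0 ω = σ • (rotCurve s Φ 0 ω).2 + Dv V s y := by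
    simp [rotW, hVal]
  rw [hW0]
  simp only [rotW, hzT, hDT]
  match_scalars <;> field_simp [h.pos.ne', hσ]

theorem Scales.rot_point (h : Scales c V s y σ) (hV : Admissible V) (hh : HeatEq V) (cfg : Cfg)
    (hs1 : s ≤ 1) (hσ : Real.sqrt s ≤ σ)
    {m : ℕ} {CR C hN : ℝ} (hCR : 0 ≤ CR) (hC : 0 ≤ C) (hN0 : 0 ≤ hN)
    (hok : cfg.G.Ok CR) (hex : cfg.G.Exact m CR hN)
    (hdh : AlongDiff (vel2 c) (hval c)) (hdp : AlongDiff (vel2 c) (Peta c))
    (hdq : AlongDiff (vel2 c) (PPeta c))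
    (hbh : FieldBound (vel2 c) (hval c) m C) (hbp : FieldBound (vel2 c) (Peta c) m C)
    (hbq : FieldBound (vel2 c) (PPeta c) m C) (hbq' : FieldBound (vel2 c) (PPeta c) (m - 1) C)
    {Φ : ℝ → EE c.d × EE c.d → EE c.d × EE c.d} (hΦ : IsRot V s y σ (backLen s) Φ)
    (hpost : ∀ r ∈ Icc 0 (backLen s), IsProbabilityMeasure (post V s y r))
    {M : ℝ≥0∞}
    (hM : ∀ r ∈ Icc 0 (backLen s), eLpNorm (fun ξ => y + r • ξ) 2 (post V s y r) ≤ M)
    (hM₀ : eLpNorm id 2 (post V s y (backLen s)) ≤ M) :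
    RotAt V cfg s σ y (ENNReal.ofReal (2 * CR * (Real.sqrt (1 / 2) * hN) ^ m / s ^ 2 *
      ((3 + m) * (Real.sqrt (1 / 2) * Real.sqrt (C * c.d))))) M (fun w => (Φ 0 w).2) := by
  set T := Real.sqrt (1 / 2) with hTd
  have hT0 : 0 ≤ T := Real.sqrt_nonneg _
  have hT' : T < 9 / 10 := sqrt_12_lt
  have hT1 : T ≤ 1 := by linarith
  have hlen : backLen s = Real.sqrt s * T := backLen_eq h.pos.le
  have hsq : 0 < Real.sqrt s := Real.sqrt_pos.2 h.pos
  have hσ0 : 0 < σ := lt_of_lt_of_le hsq hσ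
  have hsσ : s ≤ σ ^ 2 := by
    calc s = Real.sqrt s ^ 2 := (Real.sq_sqrt h.pos.le).symm
      _ ≤ σ ^ 2 := pow_le_pow_left₀ hsq.le hσ 2
  rw [hlen] at hΦ hpost hM
  have hsub : Icc 0 T ⊆ times := fun t ht =>
    ⟨lt_of_lt_of_le (by norm_num) ht.1, lt_of_le_of_lt ht.2 hT'⟩
  have hTT : T ∈ Icc 0 T := right_mem_Icc.2 hT0
  have h00 : (0 : ℝ) ∈ Icc 0 T := left_mem_Icc.2 hT0
  set node := cfg.G.node with hnoded
  have hnode : ∀ i, T * node i ∈ Icc 0 T := fun i =>
    ⟨mul_nonneg hT0 (hok.node_nonneg i), mul_le_of_le_one_right hT0 (hok.node_le i)⟩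
  have hr : ∀ i, backLen s * node i = Real.sqrt s * (T * node i) := fun i => by
    rw [hlen]; ring
  set μ := (post V s y (backLen s)).prod (gam c.d) with hμ
  have hpR : IsProbabilityMeasure (post V s y (backLen s)) := by
    rw [hlen]; exact hpost _ (scaled_mem le_rfl hTT)
  set z := rotCurve s Φ with hz
  have hzm : ∀ t ∈ Icc 0 T, Measurable (z t) := fun t ht => hΦ.meas _ (scaled_mem le_rfl ht)
  have hzd : ∀ ω, ∀ t ∈ Icc 0 T, HasDerivWithinAt (fun t => z t ω) (vel2 c (t, z t ω)) (Icc 0 T) t :=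
    fun ω => h.rotCurve_deriv le_rfl hT' hΦ ω
  have hzl : ∀ t ∈ Icc 0 T, μ.map (z t) = (post V s y (Real.sqrt s * t)).prod (gam c.d) :=
    fun t ht => by rw [hμ, hlen]; exact hΦ.law _ (scaled_mem le_rfl ht)
  have hzT : ∀ ω, z T ω = ω := hΦ.final
  -- the dominating path integrals
  set I : (Pt c → Fin c.d → ℝ) → ℕ → EE c.d × EE c.d → ℝ := fun φ k ω =>
    ∫ t in (0:ℝ)..T, ‖alongVec (vel2 c) φ k (t, z t ω)‖ with hI
  have hI0 : ∀ φ k ω, 0 ≤ I φ k ω := fun φ k ω =>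
    intervalIntegral.integral_nonneg hT0 fun t _ => norm_nonneg _
  set J := fun ω => I (hval c) m ω + I (Peta c) m ω + I (PPeta c) m ω +
    (m : ℝ) * I (PPeta c) (m - 1) ω with hJ
  have hIm : ∀ {φ}, AlongDiff (vel2 c) φ → ∀ k, AEStronglyMeasurable (I φ k) μ := fun hd k =>
    (path_measurable hd k hT0 hsub z hzm hzd).aestronglyMeasurable
  have hIb : ∀ {φ} {k}, AlongDiff (vel2 c) φ → FieldBound (vel2 c) φ k C →
      eLpNorm (I φ k) 2 μ ≤ ENNReal.ofReal (T * Real.sqrt (C * c.d)) := fun hd hb =>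
    h.path_L2 hV hd hC hb hT0 hT' hzm hzd hzl
  have hJb : eLpNorm J 2 μ ≤ ENNReal.ofReal ((3 + m) * (T * Real.sqrt (C * c.d))) := by
    have e1 := eLpNorm_add_le (hIm hdh m) (hIm hdp m) one_le_two (p := 2)
    have e2 := eLpNorm_add_le ((hIm hdh m).add (hIm hdp m)) (hIm hdq m) one_le_two (p := 2)
    have e3 := eLpNorm_add_le (((hIm hdh m).add (hIm hdp m)).add (hIm hdq m))
      ((hIm hdq (m - 1)).const_mul (m : ℝ)) one_le_two (p := 2)
    have e4 : eLpNorm (fun ω => (m : ℝ) * I (PPeta c) (m - 1) ω) 2 μ ≤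
        ENNReal.ofReal ((m : ℝ) * (T * Real.sqrt (C * c.d))) := by
      rw [show (fun ω => (m : ℝ) * I (PPeta c) (m - 1) ω) = (m : ℝ) • I (PPeta c) (m - 1) from rfl]
      refine eLpNorm_const_smul_le.trans ?_
      rw [ENNReal.ofReal_mul (Nat.cast_nonneg m), Real.enorm_eq_ofReal (Nat.cast_nonneg m)]
      exact mul_le_mul_right (hIb hdq hbq') _
    refine (show eLpNorm J 2 μ ≤ _ from e3).trans ?_
    refine (add_le_add (e2.trans (add_le_add (e1.trans
      (add_le_add (hIb hdh hbh) (hIb hdp hbp))) (hIb hdq hbq))) e4).trans (le_of_eq ?_)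
    rw [← ENNReal.ofReal_add (by positivity) (by positivity),
      ← ENNReal.ofReal_add (by positivity) (by positivity),
      ← ENNReal.ofReal_add (by positivity) (by positivity)]
    congr 1; ring
  -- the two integrands
  set hk := fun ω k t => alongVec (vel2 c) (hval c) k (t, z t ω) with hhk
  set pk := fun ω k t => alongVec (vel2 c) (Peta c) k (t, z t ω) with hpk
  set qk := fun ω k t => alongVec (vel2 c) (PPeta c) k (t, z t ω) with hqk
  set F := rotF c z with hF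
  set G := rotG c z with hG
  have chF : ∀ ω, Chain (F ω) m 0 T := fun ω =>
    (alongVec_chain hdh hsub (hzd ω) m).comb (alongVec_chain hdp hsub (hzd ω) m) _
  have chG : ∀ ω, Chain (G ω) m 0 T := fun ω =>
    (alongVec_chain hdq hsub (hzd ω) m).id_mul
  have hcont : ∀ {φ}, AlongDiff (vel2 c) φ → ∀ ω k, ContinuousOn
      (fun t => alongVec (vel2 c) φ k (t, z t ω)) (Icc 0 T) := fun hd ω k t ht =>
    (alongVec_deriv hd hsub (hzd ω) k t ht).continuousWithinAt
  have hint : ∀ {φ}, AlongDiff (vel2 c) φ → ∀ ω k, IntervalIntegrable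
      (fun t => ‖alongVec (vel2 c) φ k (t, z t ω)‖) volume 0 T := fun hd ω k =>
    (hcont hd ω k).norm.intervalIntegrable_of_Icc hT0
  have hsig : 0 ≤ c.sig⁻¹ ∧ c.sig⁻¹ ≤ s⁻¹ := by
    refine ⟨inv_nonneg.2 c.sig_pos.le, inv_anti₀ h.pos ?_⟩
    rw [h.noise]
    calc s = Real.sqrt s * Real.sqrt s := (Real.mul_self_sqrt h.pos.le).symm
      _ ≤ _ := mul_le_mul_of_nonneg_left hσ hsq.le
  have hs1' : 1 ≤ s⁻¹ := (one_le_inv₀ h.pos).2 hs1
  have hFb : ∀ ω, ∫ t in (0:ℝ)..T, ‖F ω m t‖ ≤ s⁻¹ * J ω := fun ω => by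
    calc ∫ t in (0:ℝ)..T, ‖F ω m t‖ ≤ ∫ t in (0:ℝ)..T, (‖hk ω m t‖ + c.sig⁻¹ * ‖pk ω m t‖) := by
          refine intervalIntegral.integral_mono_on hT0 ((chF ω).2.norm.intervalIntegrable_of_Icc hT0)
            ((hint hdh ω m).add ((hint hdp ω m).const_mul _)) fun t _ => ?_
          refine (norm_sub_le _ _).trans (le_of_eq ?_)
          rw [norm_smul, Real.norm_of_nonneg hsig.1]
      _ = I (hval c) m ω + c.sig⁻¹ * I (Peta c) m ω := by
          rw [intervalIntegral.integral_add (hint hdh ω m) ((hint hdp ω m).const_mul _),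
            intervalIntegral.integral_const_mul]
      _ ≤ s⁻¹ * J ω := by
          have := mul_le_mul_of_nonneg_right hsig.2 (hI0 (Peta c) m ω)
          have := le_mul_of_one_le_left (hI0 (hval c) m ω) hs1'
          have : 0 ≤ s⁻¹ * (I (PPeta c) m ω + (m : ℝ) * I (PPeta c) (m - 1) ω) :=
            mul_nonneg (by positivity) (add_nonneg (hI0 _ _ _) (mul_nonneg (by positivity) (hI0 _ _ _)))
          simp only [hJ]
          linarith
  have hGb : ∀ ω, ∫ t in (0:ℝ)..T, ‖G ω m t‖ ≤ J ω := fun ω => by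
    calc ∫ t in (0:ℝ)..T, ‖G ω m t‖ ≤
        ∫ t in (0:ℝ)..T, (‖qk ω m t‖ + (m : ℝ) * ‖qk ω (m - 1) t‖) := by
          refine intervalIntegral.integral_mono_on hT0 ((chG ω).2.norm.intervalIntegrable_of_Icc hT0)
            ((hint hdq ω m).add ((hint hdq ω (m - 1)).const_mul _)) fun t ht => ?_
          refine (norm_add_le _ _).trans (add_le_add ?_ (le_of_eq ?_))
          · rw [norm_smul, Real.norm_of_nonneg ht.1]
            exact mul_le_of_le_one_left (norm_nonneg _) (ht.2.trans hT1)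
          · rw [norm_smul, Real.norm_natCast]
      _ = I (PPeta c) m ω + (m : ℝ) * I (PPeta c) (m - 1) ω := by
          rw [intervalIntegral.integral_add (hint hdq ω m) ((hint hdq ω (m - 1)).const_mul _),
            intervalIntegral.integral_const_mul]
      _ ≤ J ω := by
          have := hI0 (hval c) m ω
          have := hI0 (Peta c) m ω
          simp only [hJ]
          linarith
  have hqF := fun ω => hex (F ω) T hT0 (chF ω)
  have hqG := fun ω => hex (G ω) T hT0 (chG ω)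
  set A := CR * (T * hN) ^ m with hA
  have hA0 : 0 ≤ A := by positivity
  have hs2 : s ^ 2 ≤ s := by nlinarith [h.pos]
  have hJ0 : ∀ ω, 0 ≤ J ω := fun ω => by
    have := hI0 (hval c) m ω
    have := hI0 (Peta c) m ω
    have := hI0 (PPeta c) m ω
    have : 0 ≤ (m : ℝ) * I (PPeta c) (m - 1) ω := mul_nonneg (Nat.cast_nonneg m) (hI0 _ _ _)
    simp only [hJ]; linarith
  have hok01 : ∀ i, cfg.G.node i ∈ Icc (0:ℝ) 1 := fun i => ⟨hok.node_nonneg i, hok.node_le i⟩
  set u := nodeU s cfg y z with hu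
  set η₀ := fun ω => (z 0 ω).2 with hη₀
  rw [show (fun w => (Φ 0 w).2) = η₀ by funext w; simp [hη₀, hz, rotCurve]]
  have hum : ∀ i, Measurable fun ω => u ω i := fun i =>
    (((hzm _ (hnode i)).fst.const_smul (Real.sqrt s * (T * node i))).const_add y).prodMk
      (hzm _ (hnode i)).snd
  have hη₀m : Measurable η₀ := (hzm 0 h00).snd
  have hres : ENNReal.ofReal (2 * A / s ^ 2 * ((3 + m) * (T * Real.sqrt (C * c.d)))) ≤
      ENNReal.ofReal (2 * CR * (T * hN) ^ m / s ^ 2 * ((3 + m) * (T * Real.sqrt (C * c.d)))) :=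
    le_of_eq (by rw [hA]; congr 1; ring)
  refine ⟨u, measurable_pi_lambda _ hum, ?_, hM₀,
    fun i => ?_, fun i => ?_, fun i => ?_, ?_⟩
  · rw [hη₀, ← hμ]
    have := hpost _ (scaled_mem le_rfl h00)
    change μ.map (Prod.snd ∘ z 0) = gam c.d
    rw [← Measure.map_map measurable_snd (hzm 0 h00), hzl 0 h00, Measure.map_snd_prod,
      measure_univ, one_smul]
  · have hri := scaled_mem (s := s) le_rfl (hnode i)
    have := hpost _ hri
    set aff := fun ξ : EE c.d => y + (Real.sqrt s * (T * node i)) • ξ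
    have haff : Measurable aff := by fun_prop
    refine ⟨(post V s y (Real.sqrt s * (T * node i))).map aff,
      Measure.isProbabilityMeasure_map haff.aemeasurable, ?_, ?_⟩
    · rw [eLpNorm_map_measure measurable_id.aestronglyMeasurable haff.aemeasurable]
      exact hM _ hri
    · rw [← hμ]
      change μ.map (Prod.map aff id ∘ z (T * node i)) = _
      rw [← Measure.map_map (haff.prodMap measurable_id) (hzm _ (hnode i)), hzl _ (hnode i),
        ← Measure.map_prod_map _ _ haff measurable_id, Measure.map_id]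
  · refine (eLp_of_pointwise (μ := μ) (g := J) (C := 2 * A / s ^ 2) (by positivity)
      (fun ω => ?_) hJb).trans hres
    refine (le_of_eq (congrArg norm (h.rot_line1 cfg hok01 hΦ hdh hdp ω i))).trans ?_
    rw [norm_smul]
    have hri : ‖backLen s * node i‖ ≤ 1 := by
      rw [hr, Real.norm_of_nonneg (mul_nonneg hsq.le (hnode i).1)]
      exact mul_le_one₀ (Real.sqrt_le_one.2 hs1) (hnode i).1 ((hnode i).2.trans hT1)
    calc ‖backLen s * node i‖ * ‖_‖ ≤ 1 * (A * (s⁻¹ * J ω) + A * (s⁻¹ * J ω)) :=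
          mul_le_mul hri ((norm_sub_le _ _).trans (add_le_add
            (((hqF ω).1 i).trans (mul_le_mul_of_nonneg_left (hFb ω) hA0))
            ((hqF ω).2.trans (mul_le_mul_of_nonneg_left (hFb ω) hA0)))) (norm_nonneg _) zero_le_one
      _ = 2 * A / s * J ω := by ring
      _ ≤ 2 * A / s ^ 2 * J ω := by
          refine mul_le_mul_of_nonneg_right ?_ (hJ0 ω)
          exact div_le_div_of_nonneg_left (by positivity) (pow_pos h.pos 2) hs2
  · refine (eLp_of_pointwise (μ := μ) (g := J) (C := 2 * A / s ^ 2) (by positivity)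
      (fun ω => ?_) hJb).trans hres
    refine (le_of_eq (congrArg norm (h.rot_line2 hh hσ0.ne' cfg hok01 hΦ hdq ω i))).trans ?_
    rw [norm_smul]
    have hri : ‖(σ ^ 2 * s)⁻¹‖ ≤ (s ^ 2)⁻¹ := by
      rw [Real.norm_of_nonneg (inv_nonneg.2 (mul_nonneg (sq_nonneg σ) h.pos.le))]
      exact inv_anti₀ (pow_pos h.pos 2) (by nlinarith [h.pos])
    calc ‖(σ ^ 2 * s)⁻¹‖ * ‖_‖ ≤ (s ^ 2)⁻¹ * (A * J ω + A * J ω) :=
          mul_le_mul hri ((norm_sub_le _ _).trans (add_le_add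
            ((hqG ω).2.trans (mul_le_mul_of_nonneg_left (hGb ω) hA0))
            (((hqG ω).1 i).trans (mul_le_mul_of_nonneg_left (hGb ω) hA0)))) (norm_nonneg _)
            (by positivity)
      _ = _ := by ring
  · refine (eLp_of_pointwise (μ := μ) (g := J) (C := 2 * A / s ^ 2) (by positivity)
      (fun ω => ?_) hJb).trans hres
    refine (le_of_eq (congrArg norm (h.rot_line3 hh hσ0.ne' cfg hok01 hΦ hdq ω))).trans ?_
    rw [norm_smul]
    have hri : ‖(σ * s)⁻¹‖ ≤ (s ^ 2)⁻¹ := by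
      rw [Real.norm_of_nonneg (inv_nonneg.2 (mul_nonneg hσ0.le h.pos.le))]
      refine inv_anti₀ (pow_pos h.pos 2) ?_
      have : s ≤ σ := le_trans (by
        calc s = Real.sqrt s * Real.sqrt s := (Real.mul_self_sqrt h.pos.le).symm
          _ ≤ 1 * Real.sqrt s := mul_le_mul_of_nonneg_right (Real.sqrt_le_one.2 hs1) hsq.le
          _ = Real.sqrt s := one_mul _) hσ
      nlinarith [h.pos]
    calc ‖(σ * s)⁻¹‖ * ‖_‖ ≤ (s ^ 2)⁻¹ * (A * J ω) :=
          mul_le_mul hri ((hqG ω).2.trans (mul_le_mul_of_nonneg_left (hGb ω) hA0)) (norm_nonneg _)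
            (by positivity)
      _ ≤ 2 * A / s ^ 2 * J ω := by
          rw [show 2 * A / s ^ 2 * J ω = 2 * ((s ^ 2)⁻¹ * (A * J ω)) by ring]
          have : 0 ≤ (s ^ 2)⁻¹ * (A * J ω) := by
            have := hJ0 ω; positivity
          linarith

end Vale.Agent.P347.Zero
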